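import Vale.Agent.P040.H457.SelUniq

/-!
# The selector: definition, equivariance, invariance and monotonicity
-/

namespace Vale.Agent.P040.H457

open Set

/-- The selector: value of `E` at the surviving point of sign `true`. -/
noncomputable def sel (σ : ℤ → Bool) (W : Finset ℤ) (P Q : ℤ → ℤ) (E : ℤ → ℝ) : ℝ :=
  open Classical in if h : ∃ p, Val σ W P Q E p then E (Classical.choose h) else 0

section
variable {W : Finset ℤ} {P Q : ℤ → ℤ} {E : ℤ → ℝ} {σ : ℤ → Bool} {a b p : ℤ} {B : ℝ}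

theorem sel_eq (h : Mdr W P Q σ) (hG : Good W P Q E) (hv : Val σ W P Q E p) :
    sel σ W P Q E = E p := by
  have hex : ∃ p, Val σ W P Q E p := ⟨p, hv⟩
  unfold sel
  rw [dif_pos hex]
  exact val_unique h hG (Classical.choose_spec hex) hv

theorem sel_symm (h : Mdr W P Q σ) (hG : Good W P Q E) :
    sel σ W Q P (fun x => - E x) = - sel σ W P Q E := by
  obtain ⟨p, hp⟩ := exists_val h hG
  rw [sel_eq h hG hp, sel_eq h.symm hG.symm hp.symm]

theorem sel_remove_P (h : Mdr W P Q σ) (hP : J W P E B) (hQ : J W Q (fun x => - E x) B)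
    (ha : a ∈ W) (hb : P a = b) (hadj : Adj W a b) (hM : E a - E b = B) (hc : 2 < W.card) :
    sel σ W P Q E = sel σ (W \ {a, b}) P (splice Q a b) E ∧
      Mdr (W \ {a, b}) P (splice Q a b) σ ∧ J (W \ {a, b}) P E B ∧
      J (W \ {a, b}) (splice Q a b) (fun x => - E x) B := by
  have S := mkStep h hP hQ ha hb hadj hM hc
  have hG : Good W P Q E := ⟨B, hP, hQ⟩
  have hm := S.del.mdr h
  obtain ⟨p, hp⟩ := exists_val hm (S.good h hG)
  refine ⟨?_, hm, ?_⟩
  · rw [sel_eq hm (S.good h hG) hp, sel_eq h hG (.stepP S hp)]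
  · have := S.levels h hG
    rwa [hM] at this

theorem sel_remove_Q (h : Mdr W P Q σ) (hP : J W P E B) (hQ : J W Q (fun x => - E x) B)
    (ha : a ∈ W) (hb : Q a = b) (hadj : Adj W a b) (hM : E b - E a = B) (hc : 2 < W.card) :
    sel σ W P Q E = sel σ (W \ {a, b}) (splice P a b) Q E ∧
      Mdr (W \ {a, b}) (splice P a b) Q σ ∧ J (W \ {a, b}) (splice P a b) E B ∧
      J (W \ {a, b}) Q (fun x => - E x) B := by
  have hG : Good W P Q E := ⟨B, hP, hQ⟩
  have h1 := sel_remove_P (E := fun x => - E x) h.symm hQ (by simpa using hP) ha hb hadj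
    (by show - E a - - E b = B; linarith) hc
  obtain ⟨h1, h2, h3, h4⟩ := h1
  simp only [neg_neg] at h4
  refine ⟨?_, h2.symm, h4, h3⟩
  have h5 := sel_symm h hG
  have h6 : Good (W \ {a, b}) Q (splice P a b) (fun x => - E x) :=
    ⟨B, h3, by simpa using h4⟩
  have h7 := sel_symm h2 h6
  simp only [neg_neg] at h7
  rw [h7, ← h1, h5, neg_neg]

theorem sel_iso {P' Q' : ℤ → ℤ} {E' : ℤ → ℝ} {σ' : ℤ → Bool} {f : ℤ → ℤ} {W' : Finset ℤ}
    (h : Mdr W P Q σ) (hG : Good W P Q E) (h' : Mdr W' P' Q' σ') (hG' : Good W' P' Q' E')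
    (hW : W.image f = W')
    (hinj : ∀ x ∈ W, ∀ y ∈ W, f x = f y → x = y)
    (hcyc : ∀ x ∈ W, ∀ y ∈ W, ∀ z ∈ W, Cyc (f x) (f y) (f z) → Cyc x y z)
    (hP : ∀ x ∈ W, P' (f x) = f (P x)) (hQ : ∀ x ∈ W, Q' (f x) = f (Q x))
    (hE : ∀ x ∈ W, E' (f x) = E x) (hσ : ∀ x ∈ W, σ' (f x) = σ x) :
    sel σ' W' P' Q' E' = sel σ W P Q E := by
  obtain ⟨p, hp⟩ := exists_val h hG
  have := hp.iso h hinj hcyc hP hQ hE hσ
  rw [hW] at this
  rw [sel_eq h hG hp, sel_eq h' hG' this, hE p hp.mem]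

theorem J.add_const {W : Finset ℤ} {P : ℤ → ℤ} {E : ℤ → ℝ} {B : ℝ} (hJ : J W P E B) (s : ℝ) :
    J W P (fun x => E x + s) B := by
  intro F hF
  have := hJ F hF
  convert this using 2
  ring

theorem Val.add_const (hv : Val σ W P Q E p) (s : ℝ) : Val σ W P Q (fun x => E x + s) p := by
  induction hv with
  | base hp hc hs => exact .base hp hc hs
  | @stepP W P Q E p a b S _ ih =>
    refine .stepP (a := a) (b := b) ⟨S.ha, S.hb, S.adj, ?_, ?_, S.card⟩ ih
    · intro x hx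
      have := S.maxP x hx
      linarith
    · intro x hx
      have := S.maxQ x hx
      linarith
  | @stepQ W P Q E p a b S _ ih =>
    refine .stepQ (a := a) (b := b) ⟨S.ha, S.hb, S.adj, ?_, ?_, S.card⟩ ih
    · intro x hx
      have := S.maxP x hx
      linarith
    · intro x hx
      have := S.maxQ x hx
      linarith

theorem Good.add_const (hG : Good W P Q E) (s : ℝ) : Good W P Q (fun x => E x + s) := by
  obtain ⟨B, h1, h2⟩ := hG
  refine ⟨B, h1.add_const s, ?_⟩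
  convert h2.add_const (-s) using 2
  ring

theorem sel_add (h : Mdr W P Q σ) (hG : Good W P Q E) (s : ℝ) :
    sel σ W P Q (fun x => E x + s) = sel σ W P Q E + s := by
  obtain ⟨p, hp⟩ := exists_val h hG
  rw [sel_eq h hG hp, sel_eq h (hG.add_const s) (hp.add_const s)]

theorem sel_congr {P' Q' : ℤ → ℤ} {E' : ℤ → ℝ} (h : Mdr W P Q σ) (hG : Good W P Q E)
    (h' : Mdr W P' Q' σ) (hG' : Good W P' Q' E')
    (hP : ∀ x ∈ W, P' x = P x) (hQ : ∀ x ∈ W, Q' x = Q x) (hE : ∀ x ∈ W, E' x = E x) :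
    sel σ W P' Q' E' = sel σ W P Q E := by
  obtain ⟨p, hp⟩ := exists_val h hG
  have := hp.congr h hP hQ hE
  rw [sel_eq h hG hp, sel_eq h' hG' this, hE p hp.mem]

end

/-! ### Monotonicity -/

/-- A function on `[0, 1]` which is monotone on each member of a finite closed cover. -/
theorem mono_of_cover {ι : Type*} [Finite ι] (T : ι → Set ℝ) (hT : ∀ i, IsClosed (T i))
    (hcov : ∀ t ∈ Icc (0 : ℝ) 1, ∃ i, t ∈ T i) (f : ℝ → ℝ)
    (hf : ∀ i, ∀ s ∈ Icc (0 : ℝ) 1, ∀ t ∈ Icc (0 : ℝ) 1, s ∈ T i → t ∈ T i → s ≤ t → f s ≤ f t) :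
    f 0 ≤ f 1 := by
  have hloc : ∀ s ∈ Icc (0 : ℝ) 1, ∃ ε > 0, ∀ t ∈ Icc (0 : ℝ) 1, |t - s| < ε →
      (t ≤ s → f t ≤ f s) ∧ (s ≤ t → f s ≤ f t) := by
    intro s hs
    have h1 : ∀ᶠ t in nhds s, ∀ i, s ∉ T i → t ∉ T i := by
      rw [Filter.eventually_all]
      intro i
      by_cases hi : s ∈ T i
      · exact Filter.Eventually.of_forall fun t h => absurd hi h
      · filter_upwards [(hT i).isOpen_compl.mem_nhds hi] with t ht _
        exact ht
    obtain ⟨ε, hε, h2⟩ := Metric.eventually_nhds_iff.1 h1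
    refine ⟨ε, hε, fun t ht hts => ?_⟩
    have h3 := h2 (show dist t s < ε by rw [Real.dist_eq]; exact hts)
    obtain ⟨i, hi⟩ := hcov t ht
    have hsi : s ∈ T i := by
      by_contra hh
      exact h3 i hh hi
    exact ⟨hf i t ht s hs hi hsi, hf i s hs t ht hsi hi⟩
  set A : Set ℝ := {t | t ∈ Icc (0 : ℝ) 1 ∧ ∀ u ∈ Icc (0 : ℝ) t, f 0 ≤ f u} with hA
  have h0A : (0 : ℝ) ∈ A := by
    refine ⟨⟨le_rfl, zero_le_one⟩, ?_⟩
    intro u hu
    have : u = 0 := le_antisymm hu.2 hu.1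
    rw [this]
  have hbdd : BddAbove A := ⟨1, fun t ht => ht.1.2⟩
  set s := sSup A with hs
  have hs0 : 0 ≤ s := le_csSup hbdd h0A
  have hs1 : s ≤ 1 := csSup_le ⟨0, h0A⟩ fun t ht => ht.1.2
  have hsI : s ∈ Icc (0 : ℝ) 1 := ⟨hs0, hs1⟩
  obtain ⟨ε, hε, hl⟩ := hloc s hsI
  have hsA : s ∈ A := by
    refine ⟨hsI, ?_⟩
    intro u hu
    rcases lt_or_eq_of_le hu.2 with h1 | h1
    · obtain ⟨t, htA, ht⟩ := exists_lt_of_lt_csSup ⟨0, h0A⟩ h1
      exact htA.2 u ⟨hu.1, ht.le⟩
    · obtain ⟨t, htA, ht⟩ := exists_lt_of_lt_csSup ⟨0, h0A⟩ (show s - ε < s by linarith)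
      have hts : t ≤ s := le_csSup hbdd htA
      have h2 := (hl t htA.1 (by rw [abs_lt]; constructor <;> linarith)).1 hts
      rw [h1]
      exact (htA.2 t ⟨htA.1.1, le_rfl⟩).trans h2
  rcases lt_or_eq_of_le hs1 with h1 | h1
  · exfalso
    set t := min (s + ε / 2) 1 with ht
    have hst : s < t := lt_min (by linarith) h1
    have htA : t ∈ A := by
      refine ⟨⟨hs0.trans hst.le, min_le_right _ _⟩, ?_⟩
      intro u hu
      rcases le_or_gt u s with h2 | h2
      · exact hsA.2 u ⟨hu.1, h2⟩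
      · have h3 : u ≤ s + ε / 2 := hu.2.trans (min_le_left _ _)
        have h4 : u ≤ 1 := hu.2.trans (min_le_right _ _)
        have h5 := (hl u ⟨hu.1, h4⟩ (by rw [abs_lt]; constructor <;> linarith)).2 h2.le
        exact (hsA.2 s ⟨hs0, le_rfl⟩).trans h5
    exact absurd (le_csSup hbdd htA) (not_le.2 hst)
  · rw [← h1]
    exact hsA.2 s ⟨hs0, le_rfl⟩

section
variable {W : Finset ℤ} {P Q : ℤ → ℤ} {E0 E1 : ℤ → ℝ} {σ : ℤ → Bool}

/-- The segment from `E0` to `E1`. -/
def seg (E0 E1 : ℤ → ℝ) (t : ℝ) : ℤ → ℝ := fun x => (1 - t) * E0 x + t * E1 x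

theorem seg_good {t : ℝ} (ht : t ∈ Icc (0 : ℝ) 1) (h0 : Good W P Q E0) (h1 : Good W P Q E1) :
    Good W P Q (seg E0 E1 t) := by
  obtain ⟨B0, p0, q0⟩ := h0
  obtain ⟨B1, p1, q1⟩ := h1
  have key : ∀ {P : ℤ → ℤ} {e0 e1 : ℤ → ℝ}, J W P e0 B0 → J W P e1 B1 →
      J W P (fun x => (1 - t) * e0 x + t * e1 x) ((1 - t) * B0 + t * B1) := by
    intro P e0 e1 j0 j1 F hF
    have k0 := j0 F hF
    have k1 := j1 F hF
    have h2 : ∑ x ∈ F, ((1 - t) * B0 + t * B1 + (((1 - t) * e0 (P x) + t * e1 (P x)) -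
        ((1 - t) * e0 x + t * e1 x))) = (1 - t) * ∑ x ∈ F, (B0 + (e0 (P x) - e0 x)) +
        t * ∑ x ∈ F, (B1 + (e1 (P x) - e1 x)) := by
      rw [Finset.mul_sum, Finset.mul_sum, ← Finset.sum_add_distrib]
      apply Finset.sum_congr rfl
      intro x _
      ring
    rw [h2]
    have h3 := mul_le_mul_of_nonneg_left k0 (show 0 ≤ 1 - t by linarith [ht.2])
    have h4 := mul_le_mul_of_nonneg_left k1 ht.1
    linarith
  refine ⟨(1 - t) * B0 + t * B1, key p0 p1, ?_⟩
  have := key q0 q1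
  convert this using 2
  simp only [seg]
  ring

theorem isClosed_step (a b : ℤ) : IsClosed {t : ℝ | Step W P Q (seg E0 E1 t) a b} := by
  by_cases hs : a ∈ W ∧ P a = b ∧ Adj W a b ∧ 2 < W.card
  · have h1 : {t : ℝ | Step W P Q (seg E0 E1 t) a b} =
        (⋂ x ∈ W, {t : ℝ | seg E0 E1 t (P x) - seg E0 E1 t x ≤ seg E0 E1 t a - seg E0 E1 t b}) ∩
        (⋂ x ∈ W, {t : ℝ | seg E0 E1 t (Q x) - seg E0 E1 t x ≤
          seg E0 E1 t a - seg E0 E1 t b}) := by
      ext t
      simp only [mem_ofPred_eq, mem_inter_iff, mem_iInter]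
      constructor
      · intro S
        exact ⟨fun x hx => S.maxP x hx, fun x hx => S.maxQ x hx⟩
      · rintro ⟨h1, h2⟩
        exact ⟨hs.1, hs.2.1, hs.2.2.1, h1, h2, hs.2.2.2⟩
    rw [h1]
    have hc : ∀ x, Continuous fun t : ℝ => seg E0 E1 t x := by
      intro x
      unfold seg
      fun_prop
    apply IsClosed.inter
    · exact isClosed_biInter fun x _ => isClosed_le ((hc _).sub (hc _)) ((hc _).sub (hc _))
    · exact isClosed_biInter fun x _ => isClosed_le ((hc _).sub (hc _)) ((hc _).sub (hc _))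
  · have h1 : {t : ℝ | Step W P Q (seg E0 E1 t) a b} = ∅ := by
      ext t
      simp only [mem_ofPred_eq, mem_empty_iff_false, iff_false]
      intro S
      exact hs ⟨S.ha, S.hb, S.adj, S.card⟩
    rw [h1]
    exact isClosed_empty

theorem neg_seg (t : ℝ) : (fun x => - seg E0 E1 t x) =
    seg (fun x => - E0 x) (fun x => - E1 x) t := by
  funext x
  simp only [seg]
  ring

/-- Monotonicity of the selector for a fixed meander. -/
theorem sel_mono (h : Mdr W P Q σ) (h0 : Good W P Q E0) (h1 : Good W P Q E1)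
    (hle : ∀ x ∈ W, E0 x ≤ E1 x) : sel σ W P Q E0 ≤ sel σ W P Q E1 := by
  induction hn : W.card using Nat.strong_induction_on generalizing W P Q E0 E1 with
  | _ n ih =>
    rcases Nat.lt_or_ge 2 W.card with hc | hc
    · -- cover of `[0, 1]`
      let T : Bool × W × W → Set ℝ := fun r =>
        if r.1 then {t : ℝ | Step W P Q (seg E0 E1 t) r.2.1 r.2.2}
        else {t : ℝ | Step W Q P (fun x => - seg E0 E1 t x) r.2.1 r.2.2}
      have hseg0 : seg E0 E1 0 = E0 := by funext x; simp [seg]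
      have hseg1 : seg E0 E1 1 = E1 := by funext x; simp [seg]
      have hmain := mono_of_cover T ?_ ?_ (fun t => sel σ W P Q (seg E0 E1 t)) ?_
      · simpa only [hseg0, hseg1] using hmain
      · rintro ⟨r, a, b⟩
        cases r
        · simp only [T, Bool.false_eq_true, if_false, neg_seg]
          exact isClosed_step _ _
        · simp only [T, if_true]
          exact isClosed_step _ _
      · intro t ht
        have hg := seg_good ht h0 h1
        rcases exists_step h hg hc with ⟨a, b, S⟩ | ⟨a, b, S⟩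
        · refine ⟨(true, ⟨a, S.ha⟩, ⟨b, S.del.memb h⟩), ?_⟩
          simp only [T, if_true]
          exact S
        · refine ⟨(false, ⟨a, S.ha⟩, ⟨b, S.del.memb h.symm⟩), ?_⟩
          simp only [T, Bool.false_eq_true, if_false]
          exact S
      · rintro ⟨r, ⟨a, ha⟩, ⟨b, hb⟩⟩ s hs t ht hsT htT hst
        have hgs := seg_good hs h0 h1
        have hgt := seg_good ht h0 h1
        have hlest : ∀ x ∈ W, seg E0 E1 s x ≤ seg E0 E1 t x := by
          intro x hx
          have := hle x hx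
          simp only [seg]
          nlinarith
        cases r
        · simp only [T, Bool.false_eq_true, if_false] at hsT htT
          have hcard := Del.card' (Step.del hsT) h.symm
          have hm := (Del.mdr (Step.del hsT) h.symm).symm
          have hg1 := (Step.good hsT h.symm hgs.symm).symm
          have hg2 := (Step.good htT h.symm hgt.symm).symm
          simp only [neg_neg] at hg1 hg2
          have := ih _ (by omega) hm hg1 hg2
            (fun x hx => hlest x (mem_del.1 hx).1) rfl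
          obtain ⟨p, hp⟩ := exists_val hm hg1
          obtain ⟨q, hq⟩ := exists_val hm hg2
          rw [sel_eq hm hg1 hp, sel_eq hm hg2 hq] at this
          rw [sel_eq h hgs (.stepQ hsT hp), sel_eq h hgt (.stepQ htT hq)]
          exact this
        · simp only [T, if_true] at hsT htT
          have hcard := Del.card' (Step.del hsT) h
          have hm := Del.mdr (Step.del hsT) h
          have hg1 := Step.good hsT h hgs
          have hg2 := Step.good htT h hgt
          have := ih _ (by omega) hm hg1 hg2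
            (fun x hx => hlest x (mem_del.1 hx).1) rfl
          obtain ⟨p, hp⟩ := exists_val hm hg1
          obtain ⟨q, hq⟩ := exists_val hm hg2
          rw [sel_eq hm hg1 hp, sel_eq hm hg2 hq] at this
          rw [sel_eq h hgs (.stepP hsT hp), sel_eq h hgt (.stepP htT hq)]
          exact this
    · obtain ⟨p, hp, hs⟩ := h.exists_true
      rw [sel_eq h h0 (.base hp hc hs), sel_eq h h1 (.base hp hc hs)]
      exact hle p hp

end

section
variable {W : Finset ℤ} {P Q : ℤ → ℤ} {E : ℤ → ℝ} {σ : ℤ → Bool}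

/-- The symmetrised selector; it does not depend on the orientation. -/
noncomputable def cen (σ : ℤ → Bool) (W : Finset ℤ) (P Q : ℤ → ℤ) (E : ℤ → ℝ) : ℝ :=
  (sel σ W P Q E + sel (fun x => !σ x) W P Q E) / 2

theorem cen_flip (σ : ℤ → Bool) (W : Finset ℤ) (P Q : ℤ → ℤ) (E : ℤ → ℝ) :
    cen (fun x => !σ x) W P Q E = cen σ W P Q E := by
  unfold cen
  simp only [Bool.not_not]
  ring

theorem cen_mono {E0 E1 : ℤ → ℝ} (h : Mdr W P Q σ) (h0 : Good W P Q E0) (h1 : Good W P Q E1)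
    (hle : ∀ x ∈ W, E0 x ≤ E1 x) : cen σ W P Q E0 ≤ cen σ W P Q E1 := by
  have e1 := sel_mono h h0 h1 hle
  have e2 := sel_mono h.flip h0 h1 hle
  unfold cen
  linarith

theorem cen_add (h : Mdr W P Q σ) (hG : Good W P Q E) (s : ℝ) :
    cen σ W P Q (fun x => E x + s) = cen σ W P Q E + s := by
  unfold cen
  rw [sel_add h hG s, sel_add h.flip hG s]
  ring

theorem cen_symm (h : Mdr W P Q σ) (hG : Good W P Q E) :
    cen σ W Q P (fun x => - E x) = - cen σ W P Q E := by
  unfold cen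
  rw [sel_symm h hG, sel_symm h.flip hG]
  ring

theorem cen_remove_P {a b : ℤ} {B : ℝ} (h : Mdr W P Q σ) (hP : J W P E B)
    (hQ : J W Q (fun x => - E x) B)
    (ha : a ∈ W) (hb : P a = b) (hadj : Adj W a b) (hM : E a - E b = B) (hc : 2 < W.card) :
    cen σ W P Q E = cen σ (W \ {a, b}) P (splice Q a b) E := by
  unfold cen
  rw [(sel_remove_P h hP hQ ha hb hadj hM hc).1, (sel_remove_P h.flip hP hQ ha hb hadj hM hc).1]

theorem cen_remove_Q {a b : ℤ} {B : ℝ} (h : Mdr W P Q σ) (hP : J W P E B)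
    (hQ : J W Q (fun x => - E x) B)
    (ha : a ∈ W) (hb : Q a = b) (hadj : Adj W a b) (hM : E b - E a = B) (hc : 2 < W.card) :
    cen σ W P Q E = cen σ (W \ {a, b}) (splice P a b) Q E := by
  unfold cen
  rw [(sel_remove_Q h hP hQ ha hb hadj hM hc).1, (sel_remove_Q h.flip hP hQ ha hb hadj hM hc).1]

theorem cen_iso {P' Q' : ℤ → ℤ} {E' : ℤ → ℝ} {σ' : ℤ → Bool} {f : ℤ → ℤ} {W' : Finset ℤ}
    (h : Mdr W P Q σ) (hG : Good W P Q E) (h' : Mdr W' P' Q' σ') (hG' : Good W' P' Q' E')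
    (hW : W.image f = W')
    (hinj : ∀ x ∈ W, ∀ y ∈ W, f x = f y → x = y)
    (hcyc : ∀ x ∈ W, ∀ y ∈ W, ∀ z ∈ W, Cyc (f x) (f y) (f z) → Cyc x y z)
    (hP : ∀ x ∈ W, P' (f x) = f (P x)) (hQ : ∀ x ∈ W, Q' (f x) = f (Q x))
    (hE : ∀ x ∈ W, E' (f x) = E x) (hσ : ∀ x ∈ W, σ' (f x) = σ x) :
    cen σ' W' P' Q' E' = cen σ W P Q E := by
  unfold cen
  rw [sel_iso h hG h' hG' hW hinj hcyc hP hQ hE hσ,
    sel_iso h.flip hG h'.flip hG' hW hinj hcyc hP hQ hE (fun x hx => by rw [hσ x hx])]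

end

end Vale.Agent.P040.H457
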