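import Mathlib

/-!
# Meanders on a circle and the pruning selector, part 1: basic definitions

A meander is a finite set `W` of points on a circle (encoded by integers with their cyclic
order) together with two non-crossing fixed point free involutions `P`, `Q` such that no proper
nonempty subset is closed under both.
-/

namespace Vale.Agent.P040.H457

/-- `y` lies strictly inside the positive arc from `x` to `z`. -/
def Cyc (x y z : ℤ) : Prop := (x < y ∧ y < z) ∨ (y < z ∧ z < x) ∨ (z < x ∧ x < y)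

instance (x y z : ℤ) : Decidable (Cyc x y z) := by unfold Cyc; infer_instance

theorem Cyc.rot {x y z : ℤ} (h : Cyc x y z) : Cyc y z x := by
  unfold Cyc at *; omega

theorem Cyc.rot' {x y z : ℤ} (h : Cyc x y z) : Cyc z x y := h.rot.rot

theorem Cyc.asymm {x y z : ℤ} (h : Cyc x y z) : ¬ Cyc x z y := by
  unfold Cyc at *; omega

theorem Cyc.ne12 {x y z : ℤ} (h : Cyc x y z) : x ≠ y := by
  unfold Cyc at *; omega

theorem Cyc.ne23 {x y z : ℤ} (h : Cyc x y z) : y ≠ z := h.rot.ne12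

theorem Cyc.ne13 {x y z : ℤ} (h : Cyc x y z) : x ≠ z := h.rot'.ne12.symm

theorem cyc_total {x y z : ℤ} (h1 : x ≠ y) (h2 : y ≠ z) (h3 : x ≠ z) (h : ¬ Cyc x z y) :
    Cyc x y z := by
  unfold Cyc at *; omega

/-- `x, y, z, w` in cyclic order. -/
theorem Cyc.trans {x y z w : ℤ} (h1 : Cyc x y z) (h2 : Cyc x z w) : Cyc x y w := by
  unfold Cyc at *; omega

theorem Cyc.trans' {x y z w : ℤ} (h1 : Cyc x y z) (h2 : Cyc x z w) : Cyc y z w := by
  unfold Cyc at *; omega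

/-- `P` is a non-crossing perfect matching of the finite set `W`. -/
structure Mat (W : Finset ℤ) (P : ℤ → ℤ) : Prop where
  mem : ∀ x ∈ W, P x ∈ W
  ne : ∀ x ∈ W, P x ≠ x
  inv : ∀ x ∈ W, P (P x) = x
  nc : ∀ x ∈ W, ∀ y ∈ W, Cyc x y (P x) → Cyc x (P y) (P x)

/-- No proper nonempty subset is closed under `P` and `Q`. -/
def Conn (W : Finset ℤ) (P Q : ℤ → ℤ) : Prop :=
  ∀ U : Finset ℤ, U ⊆ W → U.Nonempty → (∀ x ∈ U, P x ∈ U ∧ Q x ∈ U) → U = W

/-- A meander with signs. -/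
structure Mdr (W : Finset ℤ) (P Q : ℤ → ℤ) (σ : ℤ → Bool) : Prop where
  matP : Mat W P
  matQ : Mat W Q
  ne : W.Nonempty
  conn : Conn W P Q
  sP : ∀ x ∈ W, σ (P x) = !σ x
  sQ : ∀ x ∈ W, σ (Q x) = !σ x

/-- No point of `W` strictly inside the positive arc from `a` to `b`. -/
def Adj (W : Finset ℤ) (a b : ℤ) : Prop := ∀ z ∈ W, ¬ Cyc a z b

/-- Starting points of a family of pairwise disjoint closed arcs `[x → P x]`. -/
def Fam (W : Finset ℤ) (P : ℤ → ℤ) (F : Finset ℤ) : Prop :=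
  F ⊆ W ∧ ∀ x ∈ F, ∀ y ∈ F, x ≠ y → y ≠ P x ∧ ¬ Cyc x y (P x)

/-- Disjoint arcs have total weight at most `2 * B`. -/
def J (W : Finset ℤ) (P : ℤ → ℤ) (E : ℤ → ℝ) (B : ℝ) : Prop :=
  ∀ F : Finset ℤ, Fam W P F → ∑ x ∈ F, (B + (E (P x) - E x)) ≤ 2 * B

/-- The matching after deletion of two points `a`, `b` (whose partners get joined). -/
def splice (Q : ℤ → ℤ) (a b : ℤ) (x : ℤ) : ℤ :=
  if Q x = a then Q b else if Q x = b then Q a else Q x

/-- Admissible deletion of the `P`-matched adjacent pair `a → b`. -/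
structure Step (W : Finset ℤ) (P Q : ℤ → ℤ) (E : ℤ → ℝ) (a b : ℤ) : Prop where
  ha : a ∈ W
  hb : P a = b
  adj : Adj W a b
  maxP : ∀ x ∈ W, E (P x) - E x ≤ E a - E b
  maxQ : ∀ x ∈ W, E (Q x) - E x ≤ E a - E b
  card : 2 < W.card

theorem Mdr.symm {W : Finset ℤ} {P Q : ℤ → ℤ} {σ : ℤ → Bool} (h : Mdr W P Q σ) :
    Mdr W Q P σ :=
  ⟨h.matQ, h.matP, h.ne, fun U h1 h2 h3 => h.conn U h1 h2 fun x hx => (h3 x hx).symm,
    h.sQ, h.sP⟩

theorem Mdr.flip {W : Finset ℤ} {P Q : ℤ → ℤ} {σ : ℤ → Bool} (h : Mdr W P Q σ) :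
    Mdr W P Q (fun x => !σ x) :=
  ⟨h.matP, h.matQ, h.ne, h.conn, fun x hx => by simp [h.sP x hx],
    fun x hx => by simp [h.sQ x hx]⟩

theorem Mat.inj {W : Finset ℤ} {P : ℤ → ℤ} (h : Mat W P) {x y : ℤ} (hx : x ∈ W) (hy : y ∈ W)
    (e : P x = P y) : x = y := by
  rw [← h.inv x hx, e, h.inv y hy]

theorem mem_del {W : Finset ℤ} {a b x : ℤ} : x ∈ W \ {a, b} ↔ x ∈ W ∧ x ≠ a ∧ x ≠ b := by
  simp only [Finset.mem_sdiff, Finset.mem_insert, Finset.mem_singleton, not_or]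

/-- Data of a deletable pair. -/
structure Del (W : Finset ℤ) (P Q : ℤ → ℤ) (a b : ℤ) : Prop where
  ha : a ∈ W
  hb : P a = b
  adj : Adj W a b
  card : 2 < W.card

theorem Step.del {W : Finset ℤ} {P Q : ℤ → ℤ} {E : ℤ → ℝ} {a b : ℤ}
    (h : Step W P Q E a b) : Del W P Q a b := ⟨h.ha, h.hb, h.adj, h.card⟩

section
variable {W : Finset ℤ} {P Q : ℤ → ℤ} {σ : ℤ → Bool} {a b : ℤ}

theorem Del.memb (D : Del W P Q a b) (h : Mdr W P Q σ) : b ∈ W := D.hb ▸ h.matP.mem a D.ha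

theorem Del.ab (D : Del W P Q a b) (h : Mdr W P Q σ) : b ≠ a := D.hb ▸ h.matP.ne a D.ha

theorem Del.Pb (D : Del W P Q a b) (h : Mdr W P Q σ) : P b = a := by
  rw [← D.hb, h.matP.inv a D.ha]

theorem Del.Qa_ne_b (D : Del W P Q a b) (h : Mdr W P Q σ) : Q a ≠ b := by
  intro e
  have hb := D.memb h
  have h1 : ({a, b} : Finset ℤ) = W := by
    apply h.conn
    · intro x hx
      simp only [Finset.mem_insert, Finset.mem_singleton] at hx
      rcases hx with rfl | rfl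
      · exact D.ha
      · exact hb
    · exact ⟨a, by simp⟩
    · intro x hx
      simp only [Finset.mem_insert, Finset.mem_singleton] at hx ⊢
      rcases hx with rfl | rfl
      · exact ⟨Or.inr D.hb, Or.inr e⟩
      · refine ⟨Or.inl (D.Pb h), Or.inl ?_⟩
        rw [← e, h.matQ.inv _ D.ha]
  have h2 := D.card
  rw [← h1] at h2
  have := Finset.card_le_two (a := a) (b := b)
  omega

theorem Del.Qb_ne_a (D : Del W P Q a b) (h : Mdr W P Q σ) : Q b ≠ a := by
  intro e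
  apply D.Qa_ne_b h
  rw [← e, h.matQ.inv _ (D.memb h)]

/-- The cyclic order of the four points `c = Q a`, `a`, `b`, `d = Q b`. -/
theorem Del.order (D : Del W P Q a b) (h : Mdr W P Q σ) :
    Cyc a b (Q b) ∧ Cyc a (Q b) (Q a) := by
  have ha := D.ha
  have hb := D.memb h
  have hab := D.ab h
  have h1 := h.matQ.mem a ha
  have h2 := h.matQ.mem b hb
  have h3 := h.matQ.ne a ha
  have h4 := h.matQ.ne b hb
  have h5 := D.Qa_ne_b h
  have h6 := D.Qb_ne_a h
  exact ⟨cyc_total hab.symm h4.symm h6.symm (D.adj _ h2),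
    h.matQ.nc a ha b hb (cyc_total hab.symm h5.symm h3.symm (D.adj _ h1))⟩

end

end Vale.Agent.P040.H457
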