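import Vale.Agent.P040.H457.SelBasic

/-!
# Deleting a matched adjacent pair from a meander
-/

namespace Vale.Agent.P040.H457

section
variable {W : Finset ℤ} {P Q : ℤ → ℤ} {σ : ℤ → Bool} {a b : ℤ}

theorem adj_push {x z : ℤ} (hx : ¬ Cyc a x b) (hz : ¬ Cyc a z b) (h1 : x ≠ b) (h2 : z ≠ b)
    (h3 : a ≠ b) (h : Cyc x a z) : Cyc x b z := by
  unfold Cyc at *; omega

theorem adj_pull {x z : ℤ} (hx : ¬ Cyc a x b) (hz : ¬ Cyc a z b) (h1 : x ≠ a) (h2 : z ≠ a)
    (h3 : a ≠ b) (h : Cyc x b z) : Cyc x a z := by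
  unfold Cyc at *; omega

theorem Del.splice_cases (D : Del W P Q a b) (h : Mdr W P Q σ) {x : ℤ} (hx : x ∈ W \ {a, b}) :
    (x = Q a ∧ splice Q a b x = Q b) ∨ (x = Q b ∧ splice Q a b x = Q a) ∨
      (x ≠ Q a ∧ x ≠ Q b ∧ splice Q a b x = Q x ∧ Q x ≠ a ∧ Q x ≠ b) := by
  have hxW := (mem_del.1 hx).1
  have ha := D.ha
  have hb := D.memb h
  have hab := D.ab h
  by_cases h1 : x = Q a
  · left
    refine ⟨h1, ?_⟩
    unfold splice
    rw [if_pos]
    rw [h1, h.matQ.inv a ha]
  · by_cases h2 : x = Q b
    · right; left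
      refine ⟨h2, ?_⟩
      unfold splice
      rw [h2, h.matQ.inv b hb, if_neg hab, if_pos rfl]
    · right; right
      have h3 : Q x ≠ a := fun e => h1 (by rw [← e, h.matQ.inv x hxW])
      have h4 : Q x ≠ b := fun e => h2 (by rw [← e, h.matQ.inv x hxW])
      refine ⟨h1, h2, ?_, h3, h4⟩
      unfold splice
      rw [if_neg h3, if_neg h4]

theorem Del.splice_c (D : Del W P Q a b) (h : Mdr W P Q σ) : splice Q a b (Q a) = Q b := by
  unfold splice
  rw [h.matQ.inv a D.ha, if_pos rfl]

theorem Del.splice_d (D : Del W P Q a b) (h : Mdr W P Q σ) : splice Q a b (Q b) = Q a := by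
  unfold splice
  rw [h.matQ.inv b (D.memb h), if_neg (D.ab h), if_pos rfl]

theorem Del.splice_o (D : Del W P Q a b) (h : Mdr W P Q σ) {x : ℤ} (hx : x ∈ W)
    (h1 : x ≠ Q a) (h2 : x ≠ Q b) : splice Q a b x = Q x := by
  have h3 : Q x ≠ a := fun e => h1 (by rw [← e, h.matQ.inv x hx])
  have h4 : Q x ≠ b := fun e => h2 (by rw [← e, h.matQ.inv x hx])
  unfold splice
  rw [if_neg h3, if_neg h4]

theorem Del.memc (D : Del W P Q a b) (h : Mdr W P Q σ) : Q a ∈ W \ {a, b} :=
  mem_del.2 ⟨h.matQ.mem a D.ha, h.matQ.ne a D.ha, D.Qa_ne_b h⟩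

theorem Del.memd (D : Del W P Q a b) (h : Mdr W P Q σ) : Q b ∈ W \ {a, b} :=
  mem_del.2 ⟨h.matQ.mem b (D.memb h), D.Qb_ne_a h, h.matQ.ne b (D.memb h)⟩

/-- A point of the arc `c → d` (other than `a`, `b`) lies in `c → a` or in `b → d`. -/
theorem Del.split (D : Del W P Q a b) (h : Mdr W P Q σ) {y : ℤ} (hy : y ∈ W \ {a, b})
    (hc : Cyc (Q a) y (Q b)) : Cyc (Q a) y a ∨ Cyc b y (Q b) := by
  obtain ⟨hyW, hya, hyb⟩ := mem_del.1 hy
  obtain ⟨o1, o2⟩ := D.order h
  by_cases h1 : Cyc (Q a) y a
  · exact Or.inl h1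
  · right
    have h2 : Cyc (Q a) a y := cyc_total (h.matQ.ne a D.ha) hya.symm hc.ne12 h1
    have h3 : Cyc a b y := cyc_total (D.ab h).symm hyb.symm hya.symm (D.adj y hyW)
    have h4 : Cyc a y (Q b) := h2.trans' hc
    exact h3.trans' h4

theorem Del.arc_closed (D : Del W P Q a b) (h : Mdr W P Q σ) {y : ℤ} (hy : y ∈ W \ {a, b})
    (hc : Cyc (Q a) y (Q b)) : Cyc (Q a) (Q y) (Q b) := by
  obtain ⟨hyW, hya, hyb⟩ := mem_del.1 hy
  obtain ⟨o1, o2⟩ := D.order h
  have hb := D.memb h
  rcases D.split h hy hc with h1 | h1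
  · have h2 := h.matQ.nc (Q a) (h.matQ.mem a D.ha) y hyW (by rw [h.matQ.inv a D.ha]; exact h1)
    rw [h.matQ.inv a D.ha] at h2
    exact h2.trans (o2.rot')
  · have h2 := h.matQ.nc b hb y hyW h1
    -- order: c, b, d with Q y between b and d
    have h3 : Cyc b (Q b) (Q a) := o1.trans' o2
    -- Cyc b (Q y) (Q b), Cyc b (Q b) (Q a) → Cyc (Q y) (Q b) (Q a)
    have h4 : Cyc (Q y) (Q b) (Q a) := h2.trans' h3
    exact h4.rot'

theorem Del.matQ' (D : Del W P Q a b) (h : Mdr W P Q σ) :
    Mat (W \ {a, b}) (splice Q a b) := by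
  have ha := D.ha
  have hb := D.memb h
  have hab := D.ab h
  have hmc := D.memc h
  have hmd := D.memd h
  obtain ⟨o1, o2⟩ := D.order h
  have hcd : Q a ≠ Q b := fun e => hab (h.matQ.inj ha hb e).symm
  have hmem : ∀ x ∈ W \ {a, b}, splice Q a b x ∈ W \ {a, b} := by
    intro x hx
    rcases D.splice_cases h hx with ⟨h1, h2⟩ | ⟨h1, h2⟩ | ⟨h1, h2, h3, h4, h5⟩
    · rw [h2]; exact hmd
    · rw [h2]; exact hmc
    · rw [h3]; exact mem_del.2 ⟨h.matQ.mem x (mem_del.1 hx).1, h4, h5⟩
  refine ⟨hmem, ?_, ?_, ?_⟩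
  · intro x hx
    rcases D.splice_cases h hx with ⟨h1, h2⟩ | ⟨h1, h2⟩ | ⟨h1, h2, h3, h4, h5⟩
    · rw [h2, h1]; exact hcd.symm
    · rw [h2, h1]; exact hcd
    · rw [h3]; exact h.matQ.ne x (mem_del.1 hx).1
  · intro x hx
    rcases D.splice_cases h hx with ⟨h1, h2⟩ | ⟨h1, h2⟩ | ⟨h1, h2, h3, h4, h5⟩
    · rw [h2, D.splice_d h, h1]
    · rw [h2, D.splice_c h, h1]
    · have hxW := (mem_del.1 hx).1
      rw [h3, D.splice_o h (h.matQ.mem x hxW), h.matQ.inv x hxW]
      · intro e; exact (mem_del.1 hx).2.1 (h.matQ.inj hxW ha e)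
      · intro e; exact (mem_del.1 hx).2.2 (h.matQ.inj hxW hb e)
  · intro x hx y hy hxy
    obtain ⟨hyW, hya, hyb⟩ := mem_del.1 hy
    obtain ⟨hxW, hxa, hxb⟩ := mem_del.1 hx
    rcases D.splice_cases h hx with ⟨h1, h2⟩ | ⟨h1, h2⟩ | ⟨h1, h2, h3, h4, h5⟩
    · rw [h2, h1] at hxy ⊢
      rw [D.splice_o h hyW hxy.ne12.symm hxy.ne23]
      exact D.arc_closed h hy hxy
    · rw [h2, h1] at hxy ⊢
      rw [D.splice_o h hyW hxy.ne23 hxy.ne12.symm]
      by_contra hc
      have hQy : Q y ∈ W \ {a, b} := by
        refine mem_del.2 ⟨h.matQ.mem y hyW, ?_, ?_⟩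
        · intro e; apply hxy.ne23; rw [← e, h.matQ.inv y hyW]
        · intro e; apply hxy.ne12; rw [← e, h.matQ.inv y hyW]
      have h3 : Cyc (Q b) (Q a) (Q y) := by
        apply cyc_total hcd.symm _ _ hc
        · intro e; exact hya (h.matQ.inj ha hyW e).symm
        · intro e; exact hyb (h.matQ.inj hb hyW e).symm
      have h4 := D.arc_closed h hQy h3.rot
      rw [h.matQ.inv y hyW] at h4
      exact h4.rot'.asymm hxy
    · rw [h3] at hxy ⊢
      have hQx := h.matQ.mem x hxW
      rcases D.splice_cases h hy with ⟨g1, g2⟩ | ⟨g1, g2⟩ | ⟨g1, g2, g3, g4, g5⟩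
      · rw [g2]
        have k1 := h.matQ.nc x hxW y hyW hxy
        rw [g1, h.matQ.inv a ha] at k1
        have k2 := adj_push (D.adj x hxW) (D.adj (Q x) hQx) hxb h5 hab.symm k1
        exact h.matQ.nc x hxW b hb k2
      · rw [g2]
        have k1 := h.matQ.nc x hxW y hyW hxy
        rw [g1, h.matQ.inv b hb] at k1
        have k2 := adj_pull (D.adj x hxW) (D.adj (Q x) hQx) hxa h4 hab.symm k1
        exact h.matQ.nc x hxW a ha k2
      · rw [g3]
        exact h.matQ.nc x hxW y hyW hxy

theorem Del.matP' (D : Del W P Q a b) (h : Mdr W P Q σ) : Mat (W \ {a, b}) P := by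
  have ha := D.ha
  have hb := D.memb h
  refine ⟨?_, ?_, ?_, ?_⟩
  · intro x hx
    obtain ⟨hxW, hxa, hxb⟩ := mem_del.1 hx
    refine mem_del.2 ⟨h.matP.mem x hxW, ?_, ?_⟩
    · intro e
      apply hxb
      rw [← h.matP.inv x hxW, e, D.hb]
    · intro e
      apply hxa
      rw [← h.matP.inv x hxW, e, D.Pb h]
  · exact fun x hx => h.matP.ne x (mem_del.1 hx).1
  · exact fun x hx => h.matP.inv x (mem_del.1 hx).1
  · exact fun x hx y hy hc => h.matP.nc x (mem_del.1 hx).1 y (mem_del.1 hy).1 hc

theorem Del.mdr (D : Del W P Q a b) (h : Mdr W P Q σ) :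
    Mdr (W \ {a, b}) P (splice Q a b) σ := by
  have ha := D.ha
  have hb := D.memb h
  have hmc := D.memc h
  have hmd := D.memd h
  have hsb : σ b = !σ a := by rw [← D.hb]; exact h.sP a ha
  refine ⟨D.matP' h, D.matQ' h, ⟨_, hmc⟩, ?_, fun x hx => h.sP x (mem_del.1 hx).1, ?_⟩
  · intro U hU hne hcl
    have hdel : ∀ x ∈ U, x ∈ W ∧ x ≠ a ∧ x ≠ b := fun x hx => mem_del.1 (hU hx)
    by_cases hc : Q a ∈ U
    · have hd : Q b ∈ U := by
        have := (hcl _ hc).2
        rwa [D.splice_c h] at this
      have hV : insert a (insert b U) = W := by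
        apply h.conn
        · intro x hx
          simp only [Finset.mem_insert] at hx
          rcases hx with rfl | rfl | hx
          · exact ha
          · exact hb
          · exact (hdel x hx).1
        · exact ⟨a, by simp⟩
        · intro x hx
          simp only [Finset.mem_insert] at hx ⊢
          rcases hx with rfl | rfl | hx
          · exact ⟨Or.inr (Or.inl D.hb), Or.inr (Or.inr hc)⟩
          · exact ⟨Or.inl (D.Pb h), Or.inr (Or.inr hd)⟩
          · refine ⟨Or.inr (Or.inr (hcl x hx).1), ?_⟩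
            rcases D.splice_cases h (hU hx) with ⟨h1, h2⟩ | ⟨h1, h2⟩ | ⟨h1, h2, h3, h4, h5⟩
            · left; rw [h1, h.matQ.inv a ha]
            · right; left; rw [h1, h.matQ.inv b hb]
            · right; right; rw [← h3]; exact (hcl x hx).2
      apply Finset.Subset.antisymm hU
      intro x hx
      obtain ⟨hxW, hxa, hxb⟩ := mem_del.1 hx
      rw [← hV] at hxW
      simp only [Finset.mem_insert] at hxW
      rcases hxW with e | e | e
      · exact absurd e hxa
      · exact absurd e hxb
      · exact e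
    · exfalso
      have hd : Q b ∉ U := by
        intro hd
        apply hc
        have := (hcl _ hd).2
        rwa [D.splice_d h] at this
      have hV : U = W := by
        apply h.conn U (fun x hx => (hdel x hx).1) hne
        intro x hx
        refine ⟨(hcl x hx).1, ?_⟩
        have := (hcl x hx).2
        rwa [D.splice_o h (hdel x hx).1 (fun e => hc (e ▸ hx)) (fun e => hd (e ▸ hx))] at this
      exact (hdel a (hV ▸ ha)).2.1 rfl
  · intro x hx
    rcases D.splice_cases h hx with ⟨h1, h2⟩ | ⟨h1, h2⟩ | ⟨h1, h2, h3, h4, h5⟩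
    · rw [h2, h1, h.sQ b hb, h.sQ a ha, hsb]
    · rw [h2, h1, h.sQ b hb, h.sQ a ha, hsb]; simp
    · rw [h3]; exact h.sQ x (mem_del.1 hx).1

theorem Del.card' (D : Del W P Q a b) (h : Mdr W P Q σ) : (W \ {a, b}).card + 2 = W.card := by
  have h1 : ({a, b} : Finset ℤ) ⊆ W := by
    intro x hx
    simp only [Finset.mem_insert, Finset.mem_singleton] at hx
    rcases hx with rfl | rfl
    · exact D.ha
    · exact D.memb h
  have h2 := Finset.card_sdiff_add_card_eq_card h1
  rwa [Finset.card_pair (D.ab h).symm] at h2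

/-- `J` for the matching that only loses the chord. -/
theorem Del.J_P {E : ℤ → ℝ} {B : ℝ} (hJ : J W P E B) : J (W \ {a, b}) P E B := by
  intro F hF
  exact hJ F ⟨fun x hx => (mem_del.1 (hF.1 hx)).1, hF.2⟩

/-- `J` for the spliced matching. -/
theorem Del.J_Q (D : Del W P Q a b) (h : Mdr W P Q σ) {e : ℤ → ℝ} {B : ℝ} (hJ : J W Q e B)
    (he : e b - e a = B) : J (W \ {a, b}) (splice Q a b) e B := by
  have ha := D.ha
  have hb := D.memb h
  have hab := D.ab h
  obtain ⟨o1, o2⟩ := D.order h
  have hcd : Q a ≠ Q b := fun e => hab (h.matQ.inj ha hb e).symm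
  have o3 : Cyc b (Q b) (Q a) := o1.trans' o2
  have o4 : Cyc a b (Q a) := o1.trans o2
  intro F hF
  have hdel : ∀ x ∈ F, x ∈ W ∧ x ≠ a ∧ x ≠ b := fun x hx => mem_del.1 (hF.1 hx)
  by_cases hc : Q a ∈ F
  · -- the new chord is used with the arc `c → d` containing `a, b`
    have hd : Q b ∉ F := by
      intro hd
      have := (hF.2 _ hc _ hd hcd).1
      rw [D.splice_c h] at this
      exact this rfl
    have hbF : b ∉ F := fun hbF => (hdel b hbF).2.2 rfl
    have hfar : ∀ x ∈ F, x ≠ Q a → Cyc (Q b) x (Q a) := by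
      intro x hx hne
      have h1 := (hF.2 _ hc _ hx hne.symm)
      rw [D.splice_c h] at h1
      have h2 := cyc_total hcd h1.1.symm hne.symm h1.2
      exact h2.rot
    have hfam : Fam W Q (insert b F) := by
      refine ⟨?_, ?_⟩
      · intro x hx
        rcases Finset.mem_insert.1 hx with rfl | hx
        · exact hb
        · exact (hdel x hx).1
      · intro x hx y hy hxy
        rcases Finset.mem_insert.1 hx with rfl | hx
        · -- x = b
          rcases Finset.mem_insert.1 hy with rfl | hy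
          · exact absurd rfl hxy
          · refine ⟨fun e => hd (e ▸ hy), fun hcy => ?_⟩
            by_cases hyc : y = Q a
            · rw [hyc] at hcy
              exact hcy.asymm o3
            · have h1 := hfar y hy hyc
              -- Cyc d y c and Cyc b y d
              exact h1.asymm (hcy.trans' o3).rot
        · rcases Finset.mem_insert.1 hy with hyb | hy
          · -- y = b
            rw [hyb]
            by_cases hxc : x = Q a
            · rw [hxc, h.matQ.inv a ha]
              exact ⟨hab, fun hcy => hcy.asymm o4.rot'⟩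
            · have h1 := hfar x hx hxc
              refine ⟨?_, fun hcy => ?_⟩
              · intro e
                apply hd
                rw [e, h.matQ.inv x (hdel x hx).1]
                exact hx
              · have h2 : Cyc x (Q a) b := by
                  -- Cyc d x c, Cyc b d c
                  have h3 : Cyc (Q a) b (Q b) := o3.rot'
                  have h4 : Cyc (Q a) (Q b) x := h1.rot'
                  exact (h3.trans h4).rot'
                have h5 : Cyc x (Q a) (Q x) := h2.trans hcy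
                have h6 := (hF.2 _ hx _ hc hxc).2
                rw [D.splice_o h (hdel x hx).1 hxc (fun e => hd (e ▸ hx))] at h6
                exact h6 h5
          · by_cases hxc : x = Q a
            · have h1 := hF.2 _ hx _ hy hxy
              rw [hxc, D.splice_c h] at h1
              rw [hxc, h.matQ.inv a ha]
              refine ⟨(hdel y hy).2.1, fun hcy => h1.2 ?_⟩
              exact hcy.trans o2.rot'
            · have h1 := hF.2 _ hx _ hy hxy
              rwa [D.splice_o h (hdel x hx).1 hxc (fun e => hd (e ▸ hx))] at h1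
    have h1 := hJ _ hfam
    rw [Finset.sum_insert hbF, ← Finset.add_sum_erase F _ hc] at h1
    rw [← Finset.add_sum_erase F _ hc]
    have h2 : ∑ x ∈ F.erase (Q a), (B + (e (splice Q a b x) - e x)) =
        ∑ x ∈ F.erase (Q a), (B + (e (Q x) - e x)) := by
      apply Finset.sum_congr rfl
      intro x hx
      obtain ⟨hx1, hx2⟩ := Finset.mem_erase.1 hx
      rw [D.splice_o h (hdel x hx2).1 hx1 (fun e => hd (e ▸ hx2))]
    rw [h2, D.splice_c h]
    rw [h.matQ.inv a ha] at h1
    linarith
  · by_cases hd : Q b ∈ F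
    · -- the new chord is used with the arc `d → c`
      set G := F.erase (Q b) with hG
      have hGF : ∀ y ∈ G, y ∈ F ∧ y ≠ Q b := fun y hy =>
        ⟨(Finset.mem_erase.1 hy).2, (Finset.mem_erase.1 hy).1⟩
      have hnear : ∀ y ∈ G, Cyc (Q a) y (Q b) := by
        intro y hy
        obtain ⟨hy1, hy2⟩ := hGF y hy
        have h1 := hF.2 _ hd _ hy1 hy2.symm
        rw [D.splice_d h] at h1
        exact (cyc_total hcd.symm h1.1.symm hy2.symm h1.2).rot
      have hspl : ∀ y ∈ G, splice Q a b y = Q y := by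
        intro y hy
        obtain ⟨hy1, hy2⟩ := hGF y hy
        exact D.splice_o h (hdel y hy1).1 (fun e => hc (e ▸ hy1)) hy2
      have hnd : ∀ y ∈ G, ¬ Cyc y (Q b) (Q y) := by
        intro y hy
        obtain ⟨hy1, hy2⟩ := hGF y hy
        have h1 := (hF.2 _ hy1 _ hd hy2).2
        rwa [hspl y hy] at h1
      classical
      set G1 := G.filter (fun y => Cyc (Q a) y a) with hG1
      set G2 := G.filter (fun y => ¬ Cyc (Q a) y a) with hG2
      have hG12 : ∑ x ∈ G1, (B + (e (Q x) - e x)) + ∑ x ∈ G2, (B + (e (Q x) - e x)) =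
          ∑ x ∈ G, (B + (e (Q x) - e x)) := Finset.sum_filter_add_sum_filter_not G _ _
      have haG1 : a ∉ G1 := fun hh => (hdel a (hGF a (Finset.mem_filter.1 hh).1).1).2.1 rfl
      have hdG2 : Q b ∉ G2 := fun hh => (hGF _ (Finset.mem_filter.1 hh).1).2 rfl
      have hGG : ∀ x ∈ G, ∀ y ∈ G, x ≠ y → y ≠ Q x ∧ ¬ Cyc x y (Q x) := by
        intro x hx y hy hxy
        have h1 := hF.2 _ (hGF x hx).1 _ (hGF y hy).1 hxy
        rwa [hspl x hx] at h1
      have hfam1 : Fam W Q (insert a G1) := by
        refine ⟨?_, ?_⟩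
        · intro x hx
          rcases Finset.mem_insert.1 hx with rfl | hx
          · exact ha
          · exact (hdel x (hGF x (Finset.mem_filter.1 hx).1).1).1
        · intro x hx y hy hxy
          rcases Finset.mem_insert.1 hx with rfl | hx
          · rcases Finset.mem_insert.1 hy with rfl | hy
            · exact absurd rfl hxy
            · obtain ⟨hy1, hy2⟩ := Finset.mem_filter.1 hy
              exact ⟨fun e => hc (e ▸ (hGF y hy1).1), fun hcy => hcy.asymm hy2.rot'⟩
          · obtain ⟨hx1, hx2⟩ := Finset.mem_filter.1 hx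
            have hxW := (hdel x (hGF x hx1).1).1
            rcases Finset.mem_insert.1 hy with rfl | hy
            · refine ⟨?_, fun hcy => ?_⟩
              · intro e
                apply hc
                rw [e, h.matQ.inv x hxW]
                exact (hGF x hx1).1
              · have h1 := h.matQ.nc x hxW y ha hcy
                -- order: c, x, a, b, d
                have h2 : Cyc x (Q b) (Q y) := by
                  have h3 : Cyc (Q y) x (Q b) := hnear x hx1
                  exact h3.rot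
                exact hnd x hx1 (h2.trans h1)
            · exact hGG x hx1 y (Finset.mem_filter.1 hy).1 hxy
      have hfam2 : Fam W Q (insert (Q b) G2) := by
        refine ⟨?_, ?_⟩
        · intro x hx
          rcases Finset.mem_insert.1 hx with rfl | hx
          · exact h.matQ.mem b hb
          · exact (hdel x (hGF x (Finset.mem_filter.1 hx).1).1).1
        · intro x hx y hy hxy
          rcases Finset.mem_insert.1 hx with rfl | hx
          · rw [h.matQ.inv b hb]
            rcases Finset.mem_insert.1 hy with rfl | hy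
            · exact absurd rfl hxy
            · obtain ⟨hy1, hy2⟩ := Finset.mem_filter.1 hy
              refine ⟨(hdel y (hGF y hy1).1).2.2, fun hcy => ?_⟩
              rcases D.split h (hF.1 (hGF y hy1).1) (hnear y hy1) with h1 | h1
              · exact hy2 h1
              · exact h1.asymm hcy.rot'
          · obtain ⟨hx1, hx2⟩ := Finset.mem_filter.1 hx
            have hxW := (hdel x (hGF x hx1).1).1
            rcases Finset.mem_insert.1 hy with rfl | hy
            · refine ⟨?_, hnd x hx1⟩
              intro e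
              exact (hdel x (hGF x hx1).1).2.2 (h.matQ.inj hb hxW e).symm
            · exact hGG x hx1 y (Finset.mem_filter.1 hy).1 hxy
      have h1 := hJ _ hfam1
      have h2 := hJ _ hfam2
      rw [Finset.sum_insert haG1] at h1
      rw [Finset.sum_insert hdG2, h.matQ.inv b hb] at h2
      rw [← Finset.add_sum_erase F _ hd, D.splice_d h]
      have h3 : ∑ x ∈ F.erase (Q b), (B + (e (splice Q a b x) - e x)) =
          ∑ x ∈ G, (B + (e (Q x) - e x)) := by
        apply Finset.sum_congr rfl
        intro x hx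
        rw [hspl x hx]
      rw [h3]
      linarith
    · have hfam : Fam W Q F := by
        refine ⟨fun x hx => (hdel x hx).1, ?_⟩
        intro x hx y hy hxy
        have h1 := hF.2 _ hx _ hy hxy
        rwa [D.splice_o h (hdel x hx).1 (fun e => hc (e ▸ hx)) (fun e => hd (e ▸ hx))] at h1
      have h1 := hJ _ hfam
      have h2 : ∑ x ∈ F, (B + (e (splice Q a b x) - e x)) = ∑ x ∈ F, (B + (e (Q x) - e x)) := by
        apply Finset.sum_congr rfl
        intro x hx
        rw [D.splice_o h (hdel x hx).1 (fun e => hc (e ▸ hx)) (fun e => hd (e ▸ hx))]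
      rw [h2]
      exact h1

end

end Vale.Agent.P040.H457
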