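import Vale.Agent.P040.H457.SelVal

/-!
# Confluence of the deletions
-/

namespace Vale.Agent.P040.H457

section
variable {W : Finset ℤ} {P Q : ℤ → ℤ} {E : ℤ → ℝ} {σ : ℤ → Bool} {a b a' b' p q : ℤ}

/-- Uniqueness for all meanders of smaller size. -/
def IH (σ : ℤ → Bool) (n : ℕ) : Prop := ∀ (W : Finset ℤ) (P Q : ℤ → ℤ) (E : ℤ → ℝ) (p q : ℤ),
  W.card < n → Mdr W P Q σ → Good W P Q E → Val σ W P Q E p → Val σ W P Q E q → E p = E q

theorem adj_antisymm (hc : 2 < W.card) (hab : a ≠ b) (h1 : Adj W a b) (h2 : Adj W b a) :
    False := by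
  have h3 : ¬ W ⊆ {a, b} := by
    intro hs
    have := Finset.card_le_card hs
    have := Finset.card_le_two (a := a) (b := b)
    omega
  obtain ⟨z, hz, hz2⟩ := Finset.not_subset.1 h3
  simp only [Finset.mem_insert, Finset.mem_singleton, not_or] at hz2
  have h4 := cyc_total hab (Ne.symm hz2.2) (Ne.symm hz2.1) (h1 z hz)
  exact h2 z hz h4.rot

theorem sub_four {a b a' b' : ℤ} (hc : W.card ≤ 4) (ha : a ∈ W) (hb : b ∈ W) (ha' : a' ∈ W)
    (hb' : b' ∈ W) (h1 : a ≠ b) (h2 : a ≠ a') (h3 : a ≠ b') (h4 : b ≠ a') (h5 : b ≠ b')
    (h6 : a' ≠ b') : W = {a, b, a', b'} := by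
  symm
  apply Finset.eq_of_subset_of_card_le
  · intro x hx
    simp only [Finset.mem_insert, Finset.mem_singleton] at hx
    rcases hx with rfl | rfl | rfl | rfl <;> assumption
  · have : ({a, b, a', b'} : Finset ℤ).card = 4 := by
      rw [Finset.card_insert_of_notMem, Finset.card_insert_of_notMem,
        Finset.card_insert_of_notMem, Finset.card_singleton]
      · simpa using h6
      · simp [h4, h5]
      · simp [h1, h2, h3]
    omega

theorem unique_PP (ih : IH σ W.card) (h : Mdr W P Q σ) (hG : Good W P Q E)
    (S : Step W P Q E a b) (T : Step W P Q E a' b')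
    (hp : Val σ (W \ {a, b}) P (splice Q a b) E p)
    (hq : Val σ (W \ {a', b'}) P (splice Q a' b') E q) : E p = E q := by
  have hcard := S.del.card' h
  have hcard' := T.del.card' h
  have ha := S.ha
  have ha' := T.ha
  have hb := S.del.memb h
  have hb' := T.del.memb h
  have hab := S.del.ab h
  have hab' := T.del.ab h
  by_cases haa : a = a'
  · subst haa
    have hbb : b = b' := by rw [← S.hb, ← T.hb]
    subst hbb
    exact ih _ _ _ _ p q (by omega) (S.del.mdr h) (S.good h hG) hp hq
  have hbb : b ≠ b' := by
    intro e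
    apply haa
    apply h.matP.inj ha ha'
    rw [S.hb, T.hb, e]
  have hab2 : a ≠ b' := by
    intro e
    have h1 : b = a' := by rw [← S.hb, e, T.del.Pb h]
    apply adj_antisymm S.card hab.symm S.adj
    rw [h1, e]
    exact T.adj
  have hba2 : b ≠ a' := by
    intro e
    apply hab2
    rw [← S.del.Pb h, e, T.hb]
  have hM : E a - E b = E a' - E b' := by
    apply le_antisymm
    · have := T.maxP b hb
      rw [S.del.Pb h] at this
      exact this
    · have := S.maxP b' hb'
      rw [T.del.Pb h] at this
      exact this
  rcases Nat.lt_or_ge 4 W.card with hc | hc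
  · -- large case: the two deletions commute
    have hP1 := (S.levels h hG).1
    have hQ1 := (S.levels h hG).2
    have hP2 := (T.levels h hG).1
    have hQ2 := (T.levels h hG).2
    have hm1 := S.del.mdr h
    have hm2 := T.del.mdr h
    have hT : Step (W \ {a, b}) P (splice Q a b) E a' b' :=
      mkStep hm1 hP1 hQ1 (mem_del.2 ⟨ha', Ne.symm haa, hba2.symm⟩) T.hb
        (fun z hz => T.adj z (mem_del.1 hz).1) hM.symm (by omega)
    have hS : Step (W \ {a', b'}) P (splice Q a' b') E a b :=
      mkStep hm2 hP2 hQ2 (mem_del.2 ⟨ha, haa, hab2⟩) S.hb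
        (fun z hz => S.adj z (mem_del.1 hz).1) hM (by omega)
    obtain ⟨r, hr⟩ := exists_val (hT.del.mdr hm1) (hT.good hm1 (S.good h hG))
    have e1 : E p = E r :=
      ih _ _ _ _ p r (by omega) hm1 (S.good h hG) hp (.stepP hT hr)
    have hset : (W \ {a', b'}) \ {a, b} = (W \ {a, b}) \ {a', b'} := by
      ext x
      simp only [mem_del]
      tauto
    have hr2 : Val σ ((W \ {a', b'}) \ {a, b}) P (splice (splice Q a' b') a b) E r := by
      rw [hset]
      apply hr.congr (hT.del.mdr hm1) (fun x _ => rfl) _ (fun x _ => rfl)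
      intro x hx
      obtain ⟨hx1, hxa', hxb'⟩ := mem_del.1 hx
      obtain ⟨hxW, hxa, hxb⟩ := mem_del.1 hx1
      have i1 := h.matQ.inv a ha
      have i2 := h.matQ.inv b hb
      have i3 := h.matQ.inv a' ha'
      have i4 := h.matQ.inv b' hb'
      have n1 := S.del.Qa_ne_b h
      have n2 := S.del.Qb_ne_a h
      have n3 := T.del.Qa_ne_b h
      have n4 := T.del.Qb_ne_a h
      have n5 := h.matQ.ne a ha
      have n6 := h.matQ.ne b hb
      have n7 := h.matQ.ne a' ha'
      have n8 := h.matQ.ne b' hb'
      unfold splice
      by_cases c1 : Q x = a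
      · have k1 : Q a = x := by rw [← c1, h.matQ.inv x hxW]
        by_cases c2 : Q b = a'
        · have k2 : Q a' = b := by rw [← c2, i2]
          have k3 : Q b' ≠ a := fun e => hxb' (by rw [← k1, ← e, i4])
          have k4 : Q b' ≠ b := fun e => hab' (by rw [← i4, e, c2])
          simp [c1, c2, k2, k3, k4, hab2, haa, hba2.symm, hab]
        · by_cases c3 : Q b = b'
          · have k2 : Q b' = b := by rw [← c3, i2]
            have k3 : Q a' ≠ a := fun e => hxa' (by rw [← k1, ← e, i3])
            have k4 : Q a' ≠ b := fun e => hab' (by rw [← i3, e, c3])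
            simp [c1, c3, k2, k3, k4, hab2, haa, hba2.symm, hab, hab', hbb.symm]
          · simp [c1, c2, c3, hab2, haa]
      · by_cases c2 : Q x = b
        · have k1 : Q b = x := by rw [← c2, h.matQ.inv x hxW]
          by_cases c3 : Q a = a'
          · have k2 : Q a' = a := by rw [← c3, i1]
            have k3 : Q b' ≠ a := fun e => hab' (by rw [← i4, e, c3])
            have k4 : Q b' ≠ b := fun e => hxb' (by rw [← k1, ← e, i4])
            simp [c2, c3, k2, k3, k4, hab, hbb, hba2, haa]
          · by_cases c4 : Q a = b'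
            · have k2 : Q b' = a := by rw [← c4, i1]
              have k3 : Q a' ≠ a := fun e => hab' (by rw [← i3, e, c4])
              have k4 : Q a' ≠ b := fun e => hxa' (by rw [← k1, ← e, i3])
              simp [c2, c4, k2, k3, k4, hab, hbb, hba2, haa, hab', hab2]
            · simp [c2, c3, c4, hab, hbb, hba2]
        · by_cases c3 : Q x = a'
          · have k1 : Q a' = x := by rw [← c3, h.matQ.inv x hxW]
            by_cases c4 : Q b' = a
            · have k2 : Q a = b' := by rw [← c4, i4]
              have k3 : Q b ≠ a' := fun e => hxb (by rw [← k1, ← e, i2])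
              have k4 : Q b ≠ b' := fun e => hab (by rw [← i2, e, c4])
              simp [c3, c4, k2, k3, k4, Ne.symm haa, hba2.symm, hab']
            · by_cases c5 : Q b' = b
              · have k2 : Q b = b' := by rw [← c5, i4]
                have k3 : Q a ≠ a' := fun e => hxa (by rw [← k1, ← e, i1])
                have k4 : Q a ≠ b' := fun e => hab (by rw [← i1, e, c5])
                simp [c3, c5, k2, k3, k4, Ne.symm haa, hba2.symm, hab', hab]
              · simp [c3, c4, c5, Ne.symm haa, hba2.symm]
          · by_cases c4 : Q x = b'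
            · have k1 : Q b' = x := by rw [← c4, h.matQ.inv x hxW]
              by_cases c5 : Q a' = a
              · have k2 : Q a = a' := by rw [← c5, i3]
                have k3 : Q b ≠ a' := fun e => hab (by rw [← i2, e, c5])
                have k4 : Q b ≠ b' := fun e => hxb (by rw [← k1, ← e, i2])
                simp [c4, c5, k2, k3, k4, hab2.symm, hbb.symm, hab', hab]
              · by_cases c6 : Q a' = b
                · have k2 : Q b = a' := by rw [← c6, i3]
                  have k3 : Q a ≠ a' := fun e => hab (by rw [← i1, e, c6])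
                  have k4 : Q a ≠ b' := fun e => hxa (by rw [← k1, ← e, i1])
                  simp [c4, c6, k2, k3, k4, hab2.symm, hbb.symm, hab', hab]
                · simp [c4, c5, c6, hab2.symm, hbb.symm, hab']
            · simp [c1, c2, c3, c4]
    have e2 : E q = E r :=
      ih _ _ _ _ q r (by omega) hm2 (T.good h hG) hq (.stepP hS hr2)
    rw [e1, e2]
  · -- four points
    have hW := sub_four hc ha hb ha' hb' hab.symm haa hab2 hba2 hbb hab'.symm
    obtain ⟨o1, o2⟩ := S.del.order h
    obtain ⟨o3, o4⟩ := T.del.order h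
    have hQb : Q b = a' := by
      have h1 := h.matQ.mem b hb
      have h2 := h.matQ.ne b hb
      have h3 := S.del.Qb_ne_a h
      rw [hW] at h1
      simp only [Finset.mem_insert, Finset.mem_singleton] at h1
      rcases h1 with h1 | h1 | h1 | h1
      · exact absurd h1 h3
      · exact absurd h1 h2
      · exact h1
      · exfalso
        -- Q b = b', so Q a = a'
        have h4 := h.matQ.mem a ha
        rw [hW] at h4
        simp only [Finset.mem_insert, Finset.mem_singleton] at h4
        have h5 : Q a = a' := by
          rcases h4 with h4 | h4 | h4 | h4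
          · exact absurd h4 (h.matQ.ne a ha)
          · exact absurd h4 (S.del.Qa_ne_b h)
          · exact h4
          · exact absurd (h.matQ.inj ha hb (h4.trans h1.symm)) hab.symm
        have h6 : Q b' = b := by rw [← h1, h.matQ.inv b hb]
        rw [h1] at o1 o2
        rw [h5] at o2
        rw [h6] at o3
        -- o1 : Cyc a b b', o2 : Cyc a b' a', o3 : Cyc a' b' b
        exact (o1.trans' o2).asymm o3.rot'
    have hQa : Q a = b' := by
      have h4 := h.matQ.mem a ha
      rw [hW] at h4
      simp only [Finset.mem_insert, Finset.mem_singleton] at h4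
      rcases h4 with h4 | h4 | h4 | h4
      · exact absurd h4 (h.matQ.ne a ha)
      · exact absurd h4 (S.del.Qa_ne_b h)
      · exact absurd (h.matQ.inj ha hb (h4.trans hQb.symm)) hab.symm
      · exact h4
    have hQb' : Q b' = a := by rw [← hQa, h.matQ.inv a ha]
    have e1 : E a' ≤ E a := by
      have := S.maxQ b hb
      rw [hQb] at this
      linarith
    have e2 : E a ≤ E a' := by
      have := T.maxQ b' hb'
      rw [hQb'] at this
      linarith
    have e3 : E a = E a' := le_antisymm e2 e1
    have e4 : E b = E b' := by linarith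
    have s1 : σ b = !σ a := by rw [← S.hb]; exact h.sP a ha
    have s2 : σ a' = !σ b := by rw [← hQb]; exact h.sQ b hb
    have s3 : σ b' = !σ a' := by rw [← T.hb]; exact h.sP a' ha'
    have m1 := mem_del.1 hp.mem
    have m2 := mem_del.1 hq.mem
    have g1 := hp.sign
    have g2 := hq.sign
    have hp2 : p = a' ∨ p = b' := by
      have := m1.1
      rw [hW] at this
      simp only [Finset.mem_insert, Finset.mem_singleton] at this
      tauto
    have hq2 : q = a ∨ q = b := by
      have := m2.1
      rw [hW] at this
      simp only [Finset.mem_insert, Finset.mem_singleton] at this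
      tauto
    rcases hp2 with rfl | rfl <;> rcases hq2 with rfl | rfl
    · exact e3.symm
    · exfalso; rw [g2] at s2; rw [g1] at s2; simp at s2
    · exfalso; rw [g2] at s1; rw [s1] at s2; rw [s2] at s3; rw [g1] at s3; simp at s3
    · exact e4.symm

/-- Two deletions sharing a point: `a → b → b'`. -/
theorem unique_share (ih : IH σ W.card) (h : Mdr W P Q σ) (hG : Good W P Q E)
    (S : Step W P Q E a b) (T : Step W Q P (fun x => - E x) b b')
    (hp : Val σ (W \ {a, b}) P (splice Q a b) E p)
    (hq : Val σ (W \ {b, b'}) (splice P b b') Q E q) : E p = E q := by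
  have hcard := S.del.card' h
  have hcard' := T.del.card' h.symm
  have ha := S.ha
  have hb := S.del.memb h
  have hb' := T.del.memb h.symm
  have hab := S.del.ab h
  have hbb := T.del.ab h.symm
  have hab' : a ≠ b' := by
    intro e
    apply S.del.Qb_ne_a h
    rw [T.hb, e]
  have hQb' : Q b' = b := T.del.Pb h.symm
  have hM : E a - E b = E b' - E b := by
    apply le_antisymm
    · have h1 := T.maxQ a ha
      have h2 : - E (P a) - - E a ≤ - E b - - E b' := h1
      rw [S.hb] at h2
      linarith
    · have h1 := S.maxQ b hb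
      rw [T.hb] at h1
      exact h1
  have hE : E a = E b' := by linarith
  set f : ℤ → ℤ := fun x => if x = b' then a else x with hf
  have hfb : f b' = a := by simp [hf]
  have hfo : ∀ x, x ≠ b' → f x = x := fun x hx => by simp [hf, hx]
  have hinj : ∀ x ∈ W \ {a, b}, ∀ y ∈ W \ {a, b}, f x = f y → x = y := by
    intro x hx y hy e
    obtain ⟨-, hxa, -⟩ := mem_del.1 hx
    obtain ⟨-, hya, -⟩ := mem_del.1 hy
    by_cases h1 : x = b' <;> by_cases h2 : y = b'
    · rw [h1, h2]
    · rw [h1, hfb, hfo y h2] at e
      exact absurd e.symm hya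
    · rw [h2, hfb, hfo x h1] at e
      exact absurd e hxa
    · rwa [hfo x h1, hfo y h2] at e
  have himg : (W \ {a, b}).image f = W \ {b, b'} := by
    ext y
    rw [Finset.mem_image, mem_del]
    constructor
    · rintro ⟨x, hx, rfl⟩
      obtain ⟨hxW, hxa, hxb⟩ := mem_del.1 hx
      by_cases h1 : x = b'
      · rw [h1, hfb]
        exact ⟨ha, hab.symm, hab'⟩
      · rw [hfo x h1]
        exact ⟨hxW, hxb, h1⟩
    · rintro ⟨hyW, hyb, hyb'⟩
      by_cases h1 : y = a
      · exact ⟨b', mem_del.2 ⟨hb', hab'.symm, hbb⟩, by rw [hfb, h1]⟩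
      · exact ⟨y, mem_del.2 ⟨hyW, h1, hyb⟩, hfo y hyb'⟩
  have hab3 : Cyc a b b' := cyc_total hab.symm hbb.symm hab' (S.adj b' hb')
  -- no point of `W` other than `b` strictly between `a` and `b'`
  have hgap : ∀ z ∈ W \ {a, b}, ¬ Cyc a z b' := by
    intro z hz hc
    obtain ⟨hzW, hza, hzb⟩ := mem_del.1 hz
    by_cases h1 : Cyc a z b
    · exact S.adj z hzW h1
    · have h2 : Cyc a b z := cyc_total hab.symm hzb.symm hza.symm h1
      exact T.adj z hzW (h2.trans' hc)
  have hcyc : ∀ x ∈ W \ {a, b}, ∀ y ∈ W \ {a, b}, ∀ z ∈ W \ {a, b},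
      Cyc (f x) (f y) (f z) → Cyc x y z := by
    have key : ∀ y ∈ W \ {a, b}, ∀ z ∈ W \ {a, b}, y ≠ b' → z ≠ b' → Cyc a y z →
        Cyc b' y z := by
      intro y hy z hz hyb hzb hc
      obtain ⟨hyW, hya, hyb2⟩ := mem_del.1 hy
      -- Cyc a b' y
      have h1 : Cyc a b' y := cyc_total hab' hyb.symm hya.symm (hgap y hy)
      exact h1.trans' hc
    intro x hx y hy z hz hc
    by_cases h1 : x = b'
    · have h2 : y ≠ b' := by
        intro e
        rw [h1, e] at hc
        exact hc.ne12 rfl
      have h3 : z ≠ b' := by
        intro e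
        rw [h1, e] at hc
        exact hc.ne13 rfl
      rw [h1, hfb, hfo y h2, hfo z h3] at hc
      rw [h1]
      exact key y hy z hz h2 h3 hc
    · by_cases h2 : y = b'
      · have h3 : z ≠ b' := by
          intro e
          rw [h2, e] at hc
          exact hc.ne23 rfl
        rw [h2, hfb, hfo x h1, hfo z h3] at hc
        rw [h2]
        exact (key z hz x hx h3 h1 hc.rot).rot'
      · by_cases h3 : z = b'
        · rw [h3, hfb, hfo x h1, hfo y h2] at hc
          rw [h3]
          exact (key x hx y hy h1 h2 hc.rot').rot
        · rwa [hfo x h1, hfo y h2, hfo z h3] at hc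
  have hm1 := S.del.mdr h
  have hm2 := T.del.mdr h.symm
  have hP : ∀ x ∈ W \ {a, b}, splice P b b' (f x) = f (P x) := by
    intro x hx
    obtain ⟨hxW, hxa, hxb⟩ := mem_del.1 hx
    have hPxa : P x ≠ a := (mem_del.1 ((S.del.matP' h).mem x hx)).2.1
    have hPxb : P x ≠ b := (mem_del.1 ((S.del.matP' h).mem x hx)).2.2
    by_cases h1 : x = b'
    · rw [h1, hfb]
      have h2 : P b' ≠ b' := h.matP.ne b' hb'
      rw [hfo _ h2]
      unfold splice
      rw [S.hb, if_pos rfl]
    · rw [hfo x h1]
      by_cases h2 : P x = b'
      · rw [h2, hfb]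
        unfold splice
        rw [h2, if_neg hbb, if_pos rfl, S.del.Pb h]
      · rw [hfo _ h2]
        unfold splice
        rw [if_neg hPxb, if_neg h2]
  have hQ : ∀ x ∈ W \ {a, b}, Q (f x) = f (splice Q a b x) := by
    intro x hx
    obtain ⟨hxW, hxa, hxb⟩ := mem_del.1 hx
    by_cases h1 : x = b'
    · rw [h1, hfb]
      unfold splice
      rw [hQb', if_neg hab, if_pos rfl, hfo]
      intro e
      apply hab
      rw [← hQb', ← e, h.matQ.inv a ha]
    · rw [hfo x h1]
      unfold splice
      by_cases h2 : Q x = a
      · rw [if_pos h2, T.hb, hfb, h2]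
      · rw [if_neg h2]
        have h3 : Q x ≠ b := by
          intro e
          apply h1
          rw [← T.hb, ← e, h.matQ.inv x hxW]
        rw [if_neg h3, hfo]
        intro e
        apply hxb
        rw [← hQb', ← e, h.matQ.inv x hxW]
  have hEf : ∀ x ∈ W \ {a, b}, E (f x) = E x := by
    intro x hx
    by_cases h1 : x = b'
    · rw [h1, hfb, hE]
    · rw [hfo x h1]
  have hσf : ∀ x ∈ W \ {a, b}, σ (f x) = σ x := by
    intro x hx
    by_cases h1 : x = b'
    · rw [h1, hfb]
      have s1 : σ b = !σ a := by rw [← S.hb]; exact h.sP a ha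
      have s2 : σ b' = !σ b := by rw [← T.hb]; exact h.sQ b hb
      rw [s2, s1]
      simp
    · rw [hfo x h1]
  have hp' := hp.iso hm1 hinj hcyc hP hQ hEf hσf
  rw [himg] at hp'
  have hg2 := (T.good h.symm hG.symm).symm
  simp only [neg_neg] at hg2
  have e1 := ih _ _ _ _ (f p) q (by omega) hm2.symm hg2 hp' hq
  rw [← e1]
  exact (hEf p hp.mem).symm

theorem unique_PQ (ih : IH σ W.card) (ih' : IH σ W.card) (h : Mdr W P Q σ) (hG : Good W P Q E)
    (S : Step W P Q E a b) (T : Step W Q P (fun x => - E x) a' b')
    (hp : Val σ (W \ {a, b}) P (splice Q a b) E p)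
    (hq : Val σ (W \ {a', b'}) (splice P a' b') Q E q) : E p = E q := by
  have hcard := S.del.card' h
  have hcard' := T.del.card' h.symm
  have ha := S.ha
  have ha' := T.ha
  have hb := S.del.memb h
  have hb' := T.del.memb h.symm
  have hab := S.del.ab h
  have hab' := T.del.ab h.symm
  by_cases h1 : b = a'
  · subst h1
    exact unique_share ih h hG S T hp hq
  by_cases h2 : b' = a
  · subst h2
    have hG2 := hG.symm
    have hp2 := hp.symm
    have hq2 := hq.symm
    have T2 : Step W P Q (fun x => - (fun x => - E x) x) b' b := by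
      simpa using S
    have := unique_share (E := fun x => - E x) ih h.symm hG2 T T2 hq2 hp2
    simp only [neg_inj] at this
    exact this.symm
  have h3 : a ≠ a' := by
    intro e
    subst e
    have hne : b ≠ b' := by
      intro e
      subst e
      exact S.del.Qa_ne_b h T.hb
    have h4 := cyc_total hab.symm hne hab'.symm (S.adj b' hb')
    exact T.adj b hb h4
  have h4 : b ≠ b' := by
    intro e
    subst e
    by_cases h5 : Cyc a a' b
    · exact S.adj a' ha' h5
    · have h6 := cyc_total hab.symm h1 h3 h5
      exact T.adj a ha h6.rot'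
  have hM : E a - E b = - E a' - - E b' := by
    apply le_antisymm
    · have h1 := T.maxQ a ha
      have h2 : - E (P a) - - E a ≤ - E a' - - E b' := h1
      rw [S.hb] at h2
      linarith
    · have h1 := S.maxQ a' ha'
      rw [T.hb] at h1
      linarith
  rcases Nat.lt_or_ge 4 W.card with hc | hc
  · have hm1 := S.del.mdr h
    have hm2 := T.del.mdr h.symm
    have hP1 := (S.levels h hG).1
    have hQ1 := (S.levels h hG).2
    have hP2 := (T.levels h.symm hG.symm).1
    have hQ2 := (T.levels h.symm hG.symm).2
    simp only [neg_neg] at hQ2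
    have hQa' : splice Q a b a' = b' := by
      unfold splice
      rw [T.hb, if_neg h2, if_neg (Ne.symm h4)]
    have hPa : splice P a' b' a = b := by
      unfold splice
      rw [S.hb, if_neg h1, if_neg h4]
    have hT : Step (W \ {a, b}) (splice Q a b) P (fun x => - E x) a' b' := by
      refine mkStep hm1.symm hQ1 ?_ (mem_del.2 ⟨ha', Ne.symm h3, Ne.symm h1⟩) hQa'
        (fun z hz => T.adj z (mem_del.1 hz).1) hM.symm (by omega)
      simpa using hP1
    have hS : Step (W \ {a', b'}) (splice P a' b') Q E a b := by
      have h5 : (E a - E b) = (fun x => - E x) a' - (fun x => - E x) b' := hM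
      refine mkStep hm2.symm hQ2 hP2 (mem_del.2 ⟨ha, h3, Ne.symm h2⟩) hPa
        (fun z hz => S.adj z (mem_del.1 hz).1) h5 (by omega)
    have hgood := (hT.good hm1.symm (S.good h hG).symm).symm
    simp only [neg_neg] at hgood
    obtain ⟨r, hr⟩ := exists_val (hT.del.mdr hm1.symm).symm hgood
    have e1 : E p = E r :=
      ih _ _ _ _ p r (by omega) hm1 (S.good h hG) hp (.stepQ hT hr)
    have hset : (W \ {a', b'}) \ {a, b} = (W \ {a, b}) \ {a', b'} := by
      ext x
      simp only [mem_del]
      tauto
    have hg2 := (T.good h.symm hG.symm).symm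
    simp only [neg_neg] at hg2
    have hr2 : Val σ ((W \ {a', b'}) \ {a, b}) (splice P a' b') (splice Q a b) E r := by
      rw [hset]
      exact hr
    have e2 : E q = E r :=
      ih _ _ _ _ q r (by omega) hm2.symm hg2 hq (.stepP hS hr2)
    rw [e1, e2]
  · exfalso
    have hW := sub_four hc ha hb ha' hb' hab.symm h3 (Ne.symm h2) h1 h4 hab'.symm
    have hPa' : P a' = b' := by
      have h5 := h.matP.mem a' ha'
      rw [hW] at h5
      simp only [Finset.mem_insert, Finset.mem_singleton] at h5
      rcases h5 with h5 | h5 | h5 | h5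
      · exfalso
        apply h1
        rw [← h.matP.inv a' ha', h5, S.hb]
      · exfalso
        apply h3
        rw [← S.del.Pb h, ← h5, h.matP.inv a' ha']
      · exact absurd h5 (h.matP.ne a' ha')
      · exact h5
    have h6 : Del W P Q a' b' := ⟨ha', hPa', T.adj, T.card⟩
    exact h6.Qa_ne_b h T.hb

theorem val_unique (h : Mdr W P Q σ) (hG : Good W P Q E)
    (hp : Val σ W P Q E p) (hq : Val σ W P Q E q) : E p = E q := by
  suffices H : ∀ n, IH σ n by
    exact H (W.card + 1) W P Q E p q (by omega) h hG hp hq
  intro n
  induction n with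
  | zero => intro W P Q E p q hn; omega
  | succ n ih =>
    intro W P Q E p q hn h hG hp hq
    have ihW : IH σ W.card := by
      intro W' P' Q' E' p' q' hn'
      exact ih W' P' Q' E' p' q' (by omega)
    cases hp with
    | base hpm hpc hps =>
      cases hq with
      | base hqm hqc hqs =>
        have h1 : W = {p, P p} := by
          symm
          apply Finset.eq_of_subset_of_card_le
          · intro x hx
            simp only [Finset.mem_insert, Finset.mem_singleton] at hx
            rcases hx with rfl | rfl
            · exact hpm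
            · exact h.matP.mem _ hpm
          · rw [Finset.card_pair (h.matP.ne p hpm).symm]
            exact hpc
        have h2 : q = p ∨ q = P p := by
          have := hqm
          rw [h1] at this
          simpa using this
        rcases h2 with rfl | rfl
        · rfl
        · have h3 := h.sP p hpm
          rw [hqs, hps] at h3
          simp at h3
      | stepP S _ => exact absurd S.card (by omega)
      | stepQ S _ => exact absurd S.card (by omega)
    | stepP S hp =>
      cases hq with
      | base hqm hqc hqs => exact absurd S.card (by omega)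
      | stepP T hq => exact unique_PP ihW h hG S T hp hq
      | stepQ T hq => exact unique_PQ ihW ihW h hG S T hp hq
    | stepQ S hp =>
      cases hq with
      | base hqm hqc hqs => exact absurd S.card (by omega)
      | stepP T hq => exact (unique_PQ ihW ihW h hG T S hq hp).symm
      | stepQ T hq =>
        have := unique_PP (E := fun x => - E x) ihW h.symm hG.symm S T hp.symm hq.symm
        simpa using this

end

end Vale.Agent.P040.H457
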