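import Vale.Agent.P040.H457.SelDel

/-!
# Existence of admissible deletions, the value relation, and its invariance
-/

namespace Vale.Agent.P040.H457

/-- All regions have nonnegative mass, for some hemisphere mass `2 * B`. -/
def Good (W : Finset ℤ) (P Q : ℤ → ℤ) (E : ℤ → ℝ) : Prop :=
  ∃ B, J W P E B ∧ J W Q (fun x => - E x) B

section
variable {W : Finset ℤ} {P Q : ℤ → ℤ} {σ : ℤ → Bool} {a b : ℤ}

theorem J.le {e : ℤ → ℝ} {B : ℝ} (hJ : J W P e B) {x : ℤ} (hx : x ∈ W) :
    e (P x) - e x ≤ B := by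
  have h1 := hJ {x} ⟨by simpa using hx, by
    intro y hy z hz hyz
    simp only [Finset.mem_singleton] at hy hz
    exact absurd (hy.trans hz.symm) hyz⟩
  simp only [Finset.sum_singleton] at h1
  linarith

theorem J.ge {e : ℤ → ℝ} {B : ℝ} (hJ : J W P e B) (hP : Mat W P) {x : ℤ} (hx : x ∈ W) :
    e x - e (P x) ≤ B := by
  have := hJ.le (hP.mem x hx)
  rwa [hP.inv x hx] at this

theorem J.erode {e : ℤ → ℝ} {B M : ℝ} (hJ : J W P e B) (h1 : ∀ x ∈ W, e (P x) - e x ≤ M)
    (h2 : M ≤ B) (h0 : 0 ≤ M) : J W P e M := by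
  intro F hF
  rcases Nat.lt_or_ge F.card 2 with hc | hc
  · rcases Nat.lt_or_ge F.card 1 with hc1 | hc1
    · have : F = ∅ := Finset.card_eq_zero.1 (by omega)
      subst this
      simpa using h0
    · obtain ⟨x, rfl⟩ := Finset.card_eq_one.1 (show F.card = 1 by omega)
      simp only [Finset.sum_singleton]
      have := h1 x (hF.1 (by simp))
      linarith
  · have h3 := hJ F hF
    have h4 : ∑ x ∈ F, (B + (e (P x) - e x)) =
        ∑ x ∈ F, (M + (e (P x) - e x)) + F.card * (B - M) := by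
      rw [← nsmul_eq_mul, ← Finset.sum_const, ← Finset.sum_add_distrib]
      apply Finset.sum_congr rfl
      intro x _
      ring
    have h5 : (2 : ℝ) ≤ F.card := by exact_mod_cast hc
    nlinarith

theorem Step.nonneg {E : ℤ → ℝ} (S : Step W P Q E a b) (h : Mdr W P Q σ) : 0 ≤ E a - E b := by
  have h1 := S.maxP a S.ha
  rw [S.hb] at h1
  linarith

theorem Step.level {E : ℤ → ℝ} (S : Step W P Q E a b) (h : Mdr W P Q σ)
    (hG : Good W P Q E) : J W P E (E a - E b) ∧ J W Q (fun x => - E x) (E a - E b) := by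
  obtain ⟨B, h1, h2⟩ := hG
  have h3 : E a - E b ≤ B := by
    have := h1.ge h.matP S.ha
    rwa [S.hb] at this
  refine ⟨h1.erode S.maxP h3 (S.nonneg h), h2.erode ?_ h3 (S.nonneg h)⟩
  intro x hx
  have := S.maxQ (Q x) (h.matQ.mem x hx)
  rw [h.matQ.inv x hx] at this
  show - E (Q x) - - E x ≤ _
  linarith

theorem Step.levels {E : ℤ → ℝ} (S : Step W P Q E a b) (h : Mdr W P Q σ)
    (hG : Good W P Q E) : J (W \ {a, b}) P E (E a - E b) ∧
      J (W \ {a, b}) (splice Q a b) (fun x => - E x) (E a - E b) := by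
  obtain ⟨h1, h2⟩ := S.level h hG
  refine ⟨Del.J_P h1, S.del.J_Q h h2 ?_⟩
  show - E b - - E a = _
  ring

theorem Step.good {E : ℤ → ℝ} (S : Step W P Q E a b) (h : Mdr W P Q σ)
    (hG : Good W P Q E) : Good (W \ {a, b}) P (splice Q a b) E :=
  ⟨_, S.levels h hG⟩

theorem Good.symm {E : ℤ → ℝ} (hG : Good W P Q E) : Good W Q P (fun x => - E x) := by
  obtain ⟨B, h1, h2⟩ := hG
  refine ⟨B, h2, ?_⟩
  simpa using h1

theorem mkStep {E : ℤ → ℝ} {M : ℝ} (h : Mdr W P Q σ) (hP : J W P E M)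
    (hQ : J W Q (fun x => - E x) M) (ha : a ∈ W) (hb : P a = b) (hadj : Adj W a b)
    (hM : E a - E b = M) (hc : 2 < W.card) : Step W P Q E a b := by
  refine ⟨ha, hb, hadj, ?_, ?_, hc⟩
  · intro x hx
    rw [hM]
    exact hP.le hx
  · intro x hx
    rw [hM]
    have h1 : - E x - - E (Q x) ≤ M := hQ.ge h.matQ hx
    linarith

theorem exists_adj {e : ℤ → ℝ} {M : ℝ} (hP : Mat W P) (hJ : J W P e M) :
    ∀ n : ℕ, ∀ x ∈ W, (W.filter (fun z => Cyc x z (P x))).card ≤ n → e x - e (P x) = M →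
      ∃ a ∈ W, Adj W a (P a) ∧ e a - e (P a) = M := by
  intro n
  induction n with
  | zero =>
    intro x hx hn hM
    refine ⟨x, hx, ?_, hM⟩
    intro z hz hc
    have : z ∈ W.filter (fun z => Cyc x z (P x)) := Finset.mem_filter.2 ⟨hz, hc⟩
    have h2 : (W.filter (fun z => Cyc x z (P x))) = ∅ := Finset.card_eq_zero.1 (by omega)
    rw [h2] at this
    simp at this
  | succ n ih =>
    intro x hx hn hM
    by_cases hadj : Adj W x (P x)
    · exact ⟨x, hx, hadj, hM⟩
    · unfold Adj at hadj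
      push Not at hadj
      obtain ⟨z, hz, hxz⟩ := hadj
      obtain ⟨y, hy, h1, h2, h3⟩ : ∃ y ∈ W, Cyc x y (P x) ∧ Cyc x (P y) (P x) ∧
          Cyc x y (P y) := by
        have hn := hP.nc x hx z hz hxz
        by_cases hh : Cyc x z (P z)
        · exact ⟨z, hz, hxz, hn, hh⟩
        · refine ⟨P z, hP.mem z hz, hn, ?_, ?_⟩
          · rw [hP.inv z hz]; exact hxz
          · rw [hP.inv z hz]
            exact cyc_total hn.ne12 (hP.ne z hz) hxz.ne12 hh
      have hyP : Cyc y (P y) (P x) := h3.trans' h2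
      have hPxW := hP.mem x hx
      have hPxy : P x ≠ y := h1.ne23.symm
      have hfam : Fam W P {P x, y} := by
        refine ⟨?_, ?_⟩
        · intro w hw
          simp only [Finset.mem_insert, Finset.mem_singleton] at hw
          rcases hw with rfl | rfl
          · exact hPxW
          · exact hy
        · intro u hu v hv huv
          simp only [Finset.mem_insert, Finset.mem_singleton] at hu hv
          rcases hu with hu | hu <;> rcases hv with hv | hv
          · exact absurd (hu.trans hv.symm) huv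
          · subst hu hv
            rw [hP.inv x hx]
            exact ⟨h1.ne12.symm, fun hc => h1.asymm hc.rot'⟩
          · subst hu hv
            refine ⟨fun e => h1.ne12 (hP.inj hx hy e), fun hc => hc.asymm hyP⟩
          · exact absurd (hu.trans hv.symm) huv
      have h4 := hJ _ hfam
      rw [Finset.sum_pair hPxy, hP.inv x hx] at h4
      have h5 : e y - e (P y) ≤ M := hJ.ge hP hy
      have h6 : e y - e (P y) = M := by linarith
      apply ih y hy _ h6
      have hlt : (W.filter (fun z => Cyc y z (P y))).card <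
          (W.filter (fun z => Cyc x z (P x))).card := by
        apply Finset.card_lt_card
        rw [Finset.ssubset_iff_of_subset]
        · exact ⟨y, Finset.mem_filter.2 ⟨hy, h1⟩, fun hc => (Finset.mem_filter.1 hc).2.ne12 rfl⟩
        · intro w hw
          obtain ⟨hw1, hw2⟩ := Finset.mem_filter.1 hw
          refine Finset.mem_filter.2 ⟨hw1, ?_⟩
          have h7 : Cyc y w (P x) := hw2.trans hyP
          have h8 : Cyc w (P x) x := h7.trans' h1.rot
          exact h8.rot'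
      omega

theorem exists_step {E : ℤ → ℝ} (h : Mdr W P Q σ) (hG : Good W P Q E) (hc : 2 < W.card) :
    (∃ a b, Step W P Q E a b) ∨ (∃ a b, Step W Q P (fun x => - E x) a b) := by
  obtain ⟨x0, hx0, hmax⟩ := Finset.exists_max_image W
    (fun x => max (E (P x) - E x) (E (Q x) - E x)) h.ne
  set M := max (E (P x0) - E x0) (E (Q x0) - E x0) with hMdef
  have hPle : ∀ x ∈ W, E (P x) - E x ≤ M := fun x hx => (le_max_left _ _).trans (hmax x hx)
  have hQle : ∀ x ∈ W, E (Q x) - E x ≤ M := fun x hx => (le_max_right _ _).trans (hmax x hx)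
  have hPle' : ∀ x ∈ W, E x - E (P x) ≤ M := fun x hx => by
    have := hPle (P x) (h.matP.mem x hx)
    rwa [h.matP.inv x hx] at this
  have hQle' : ∀ x ∈ W, E x - E (Q x) ≤ M := fun x hx => by
    have := hQle (Q x) (h.matQ.mem x hx)
    rwa [h.matQ.inv x hx] at this
  have hM0 : 0 ≤ M := by
    have h1 := hPle x0 hx0
    have h2 := hPle' x0 hx0
    linarith
  obtain ⟨B, hB1, hB2⟩ := hG
  have hMB : M ≤ B := by
    apply max_le
    · exact hB1.le hx0
    · have h1 : - E x0 - - E (Q x0) ≤ B := hB2.ge h.matQ hx0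
      linarith
  have hJ1 : J W P E M := hB1.erode hPle hMB hM0
  have hJ2 : J W Q (fun x => - E x) M := hB2.erode (fun x hx => by
    have := hQle' x hx
    show - E (Q x) - - E x ≤ M
    linarith) hMB hM0
  rcases max_choice (E (P x0) - E x0) (E (Q x0) - E x0) with hh | hh
  · left
    rw [← hMdef] at hh
    have h1 : E (P x0) - E (P (P x0)) = M := by rw [h.matP.inv x0 hx0]; exact hh.symm
    obtain ⟨a, ha, hadj, haM⟩ := exists_adj h.matP hJ1 _ (P x0) (h.matP.mem x0 hx0) le_rfl h1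
    exact ⟨a, P a, mkStep h hJ1 hJ2 ha rfl hadj haM hc⟩
  · right
    rw [← hMdef] at hh
    have h1 : (fun x => - E x) x0 - (fun x => - E x) (Q x0) = M := by
      show - E x0 - - E (Q x0) = M
      linarith
    obtain ⟨a, ha, hadj, haM⟩ := exists_adj h.matQ hJ2 _ x0 hx0 le_rfl h1
    refine ⟨a, Q a, mkStep h.symm hJ2 ?_ ha rfl hadj haM hc⟩
    simpa using hJ1

end

/-- `p` is the point of sign `true` surviving a sequence of admissible deletions. -/
inductive Val (σ : ℤ → Bool) : Finset ℤ → (ℤ → ℤ) → (ℤ → ℤ) → (ℤ → ℝ) → ℤ → Prop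
  | base {W : Finset ℤ} {P Q : ℤ → ℤ} {E : ℤ → ℝ} {p : ℤ} (hp : p ∈ W) (hc : W.card ≤ 2)
      (hs : σ p = true) : Val σ W P Q E p
  | stepP {W : Finset ℤ} {P Q : ℤ → ℤ} {E : ℤ → ℝ} {p a b : ℤ} (S : Step W P Q E a b)
      (h : Val σ (W \ {a, b}) P (splice Q a b) E p) : Val σ W P Q E p
  | stepQ {W : Finset ℤ} {P Q : ℤ → ℤ} {E : ℤ → ℝ} {p a b : ℤ}
      (S : Step W Q P (fun x => - E x) a b)
      (h : Val σ (W \ {a, b}) (splice P a b) Q E p) : Val σ W P Q E p

section
variable {W : Finset ℤ} {P Q : ℤ → ℤ} {E : ℤ → ℝ} {σ : ℤ → Bool} {a b p q : ℤ}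

theorem Val.mem (h : Val σ W P Q E p) : p ∈ W := by
  induction h with
  | base hp _ _ => exact hp
  | stepP _ _ ih => exact (mem_del.1 ih).1
  | stepQ _ _ ih => exact (mem_del.1 ih).1

theorem Val.sign (h : Val σ W P Q E p) : σ p = true := by
  induction h with
  | base _ _ hs => exact hs
  | stepP _ _ ih => exact ih
  | stepQ _ _ ih => exact ih

theorem Val.symm (h : Val σ W P Q E p) : Val σ W Q P (fun x => - E x) p := by
  induction h with
  | base hp hc hs => exact .base hp hc hs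
  | @stepP W P Q E p a b S _ ih =>
    refine .stepQ (a := a) (b := b) ?_ ih
    have : (fun x => - (fun x => - E x) x) = E := by funext x; simp
    rw [this]
    exact S
  | stepQ S _ ih => exact .stepP S ih

theorem Val.symm_iff : Val σ W P Q E p ↔ Val σ W Q P (fun x => - E x) p := by
  refine ⟨Val.symm, fun h => ?_⟩
  have := h.symm
  simpa using this

theorem Mdr.exists_true (h : Mdr W P Q σ) : ∃ p ∈ W, σ p = true := by
  obtain ⟨x, hx⟩ := h.ne
  by_cases hs : σ x = true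
  · exact ⟨x, hx, hs⟩
  · refine ⟨P x, h.matP.mem x hx, ?_⟩
    rw [h.sP x hx]
    simpa using hs

theorem exists_val (h : Mdr W P Q σ) (hG : Good W P Q E) : ∃ p, Val σ W P Q E p := by
  induction hn : W.card using Nat.strong_induction_on generalizing W P Q with
  | _ n ih =>
    rcases Nat.lt_or_ge 2 W.card with hc | hc
    · rcases exists_step h hG hc with ⟨a, b, S⟩ | ⟨a, b, S⟩
      · have hcard := S.del.card' h
        obtain ⟨p, hp⟩ := ih _ (by omega) (S.del.mdr h) (S.good h hG) rfl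
        exact ⟨p, .stepP S hp⟩
      · have hcard := S.del.card' h.symm
        have h1 := (S.del.mdr h.symm).symm
        have h2 := (S.good h.symm hG.symm).symm
        simp only [neg_neg] at h2
        obtain ⟨p, hp⟩ := ih _ (by omega) h1 h2 rfl
        exact ⟨p, .stepQ S hp⟩
    · obtain ⟨p, hp, hs⟩ := h.exists_true
      exact ⟨p, .base hp hc hs⟩

/-- Invariance under maps preserving the cyclic order. -/
theorem Val.iso (hv : Val σ W P Q E p) : ∀ {P' Q' : ℤ → ℤ} {E' : ℤ → ℝ} {σ' : ℤ → Bool}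
    {f : ℤ → ℤ} (_ : Mdr W P Q σ) (_ : ∀ x ∈ W, ∀ y ∈ W, f x = f y → x = y)
    (_ : ∀ x ∈ W, ∀ y ∈ W, ∀ z ∈ W, Cyc (f x) (f y) (f z) → Cyc x y z)
    (_ : ∀ x ∈ W, P' (f x) = f (P x)) (_ : ∀ x ∈ W, Q' (f x) = f (Q x))
    (_ : ∀ x ∈ W, E' (f x) = E x) (_ : ∀ x ∈ W, σ' (f x) = σ x),
    Val σ' (W.image f) P' Q' E' (f p) := by
  have himg : ∀ {W : Finset ℤ} {f : ℤ → ℤ} {a b : ℤ}, (∀ x ∈ W, ∀ y ∈ W, f x = f y → x = y) →
      a ∈ W → b ∈ W → (W \ {a, b}).image f = W.image f \ {f a, f b} := by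
    intro W f a b hinj ha hb
    ext y
    simp only [Finset.mem_image, mem_del]
    constructor
    · rintro ⟨x, ⟨hx, hxa, hxb⟩, rfl⟩
      exact ⟨⟨x, hx, rfl⟩, fun e => hxa (hinj x hx a ha e), fun e => hxb (hinj x hx b hb e)⟩
    · rintro ⟨⟨x, hx, rfl⟩, h1, h2⟩
      exact ⟨x, ⟨hx, fun e => h1 (by rw [e]), fun e => h2 (by rw [e])⟩, rfl⟩
  have hcard : ∀ {W : Finset ℤ} {f : ℤ → ℤ}, (∀ x ∈ W, ∀ y ∈ W, f x = f y → x = y) →
      (W.image f).card = W.card := by
    intro W f hinj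
    apply Finset.card_image_of_injOn
    intro x hx y hy e
    exact hinj x hx y hy e
  have hstep : ∀ {W : Finset ℤ} {P Q : ℤ → ℤ} {E : ℤ → ℝ} {a b : ℤ} {P' Q' : ℤ → ℤ}
      {E' : ℤ → ℝ} {f : ℤ → ℤ} (σ : ℤ → Bool), Step W P Q E a b → Mdr W P Q σ →
      (∀ x ∈ W, ∀ y ∈ W, f x = f y → x = y) →
      (∀ x ∈ W, ∀ y ∈ W, ∀ z ∈ W, Cyc (f x) (f y) (f z) → Cyc x y z) →
      (∀ x ∈ W, P' (f x) = f (P x)) → (∀ x ∈ W, Q' (f x) = f (Q x)) →
      (∀ x ∈ W, E' (f x) = E x) → Step (W.image f) P' Q' E' (f a) (f b) := by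
    intro W P Q E a b P' Q' E' f σ S h hinj hcyc hP hQ hE
    have hb := S.del.memb h
    refine ⟨Finset.mem_image_of_mem f S.ha, by rw [hP a S.ha, S.hb], ?_, ?_, ?_, ?_⟩
    · intro z hz hc
      obtain ⟨w, hw, rfl⟩ := Finset.mem_image.1 hz
      exact S.adj w hw (hcyc a S.ha w hw b hb hc)
    · intro z hz
      obtain ⟨w, hw, rfl⟩ := Finset.mem_image.1 hz
      rw [hP w hw, hE _ (h.matP.mem w hw), hE w hw, hE a S.ha, hE b hb]
      exact S.maxP w hw
    · intro z hz
      obtain ⟨w, hw, rfl⟩ := Finset.mem_image.1 hz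
      rw [hQ w hw, hE _ (h.matQ.mem w hw), hE w hw, hE a S.ha, hE b hb]
      exact S.maxQ w hw
    · rw [hcard hinj]
      exact S.card
  have hspl : ∀ {W : Finset ℤ} {Q Q' : ℤ → ℤ} {f : ℤ → ℤ} {a b : ℤ}, Mat W Q → a ∈ W → b ∈ W →
      (∀ x ∈ W, ∀ y ∈ W, f x = f y → x = y) → (∀ x ∈ W, Q' (f x) = f (Q x)) →
      ∀ x ∈ W, splice Q' (f a) (f b) (f x) = f (splice Q a b x) := by
    intro W Q Q' f a b hQ ha hb hinj hQQ x hx
    have hQx := hQ.mem x hx
    unfold splice
    rw [hQQ x hx, hQQ a ha, hQQ b hb]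
    by_cases h1 : Q x = a
    · rw [if_pos h1, if_pos (by rw [h1])]
    · rw [if_neg h1, if_neg (fun e => h1 (hinj _ hQx _ ha e))]
      by_cases h2 : Q x = b
      · rw [if_pos h2, if_pos (by rw [h2])]
      · rw [if_neg h2, if_neg (fun e => h2 (hinj _ hQx _ hb e))]
  induction hv with
  | base hp hc hs =>
    intro P' Q' E' σ' f h hinj hcyc hP hQ hE hσ
    refine .base (Finset.mem_image_of_mem f hp) ?_ (by rw [hσ _ hp]; exact hs)
    rw [hcard hinj]
    exact hc
  | @stepP W P Q E p a b S _ ih =>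
    intro P' Q' E' σ' f h hinj hcyc hP hQ hE hσ
    have hb := S.del.memb h
    have hsub : ∀ x ∈ W \ {a, b}, x ∈ W := fun x hx => (mem_del.1 hx).1
    have h1 := @ih P' (splice Q' (f a) (f b)) E' σ' f (S.del.mdr h)
      (fun x hx y hy => hinj x (hsub x hx) y (hsub y hy))
      (fun x hx y hy z hz => hcyc x (hsub x hx) y (hsub y hy) z (hsub z hz))
      (fun x hx => hP x (hsub x hx))
      (fun x hx => hspl h.matQ S.ha hb hinj hQ x (hsub x hx))
      (fun x hx => hE x (hsub x hx)) (fun x hx => hσ x (hsub x hx))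
    rw [himg hinj S.ha hb] at h1
    exact .stepP (hstep σ S h hinj hcyc hP hQ hE) h1
  | @stepQ W P Q E p a b S _ ih =>
    intro P' Q' E' σ' f h hinj hcyc hP hQ hE hσ
    have hb := S.del.memb h.symm
    have hsub : ∀ x ∈ W \ {a, b}, x ∈ W := fun x hx => (mem_del.1 hx).1
    have h1 := @ih (splice P' (f a) (f b)) Q' E' σ' f (S.del.mdr h.symm).symm
      (fun x hx y hy => hinj x (hsub x hx) y (hsub y hy))
      (fun x hx y hy z hz => hcyc x (hsub x hx) y (hsub y hy) z (hsub z hz))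
      (fun x hx => hspl h.matP S.ha hb hinj hP x (hsub x hx))
      (fun x hx => hQ x (hsub x hx))
      (fun x hx => hE x (hsub x hx)) (fun x hx => hσ x (hsub x hx))
    rw [himg hinj S.ha hb] at h1
    refine .stepQ (hstep σ S h.symm hinj hcyc hQ hP ?_) h1
    intro x hx
    rw [hE x hx]

/-- `Val` only depends on the data on `W`. -/
theorem Val.congr {P' Q' : ℤ → ℤ} {E' : ℤ → ℝ} (hv : Val σ W P Q E p) (h : Mdr W P Q σ)
    (hP : ∀ x ∈ W, P' x = P x) (hQ : ∀ x ∈ W, Q' x = Q x) (hE : ∀ x ∈ W, E' x = E x) :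
    Val σ W P' Q' E' p := by
  have := hv.iso (P' := P') (Q' := Q') (E' := E') (σ' := σ) (f := fun x => x) h
    (fun x _ y _ e => e) (fun x _ y _ z _ e => e) hP hQ hE (fun x _ => rfl)
  simpa using this

end

end Vale.Agent.P040.H457
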